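import Vale.Agent.P269.H207.Defs

/-! Identities for the coefficients `[x]^k_i`. -/

set_option autoImplicit false

namespace Vale.Agent.P269.H207

open Finset Polynomial

/-- the generating polynomial of `br` -/
noncomputable def brP (K : ℕ) (x : ℂ) : ℂ[X] := ∏ j ∈ range K, (X + C (x + j))

lemma br_def (K i : ℕ) (x : ℂ) : br K i x = (brP K x).coeff i := rfl

lemma brP_succ (K : ℕ) (x : ℂ) : brP (K + 1) x = brP K x * (X + C (x + K)) := by
  simp [brP, prod_range_succ]

lemma brP_succ' (K : ℕ) (x : ℂ) : brP (K + 1) (x - 1) = brP K x * (X + C (x - 1)) := by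
  unfold brP
  rw [prod_range_succ']
  congr 1
  · refine prod_congr rfl fun j _ => ?_
    congr 2
    push_cast
    ring
  · simp

lemma br_diff (K i : ℕ) (x : ℂ) :
    br (K + 1) i x - br (K + 1) i (x - 1) = (K + 1) * br K i x := by
  simp only [br_def]
  rw [← coeff_sub, brP_succ, brP_succ', ← mul_sub]
  have : (X + C (x + K) - (X + C (x - 1)) : ℂ[X]) = C ((K : ℂ) + 1) := by
    rw [show (X + C (x + K) - (X + C (x - 1)) : ℂ[X]) = C (x + K) - C (x - 1) by ring,
      ← C_sub]
    congr 1
    ring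
  rw [this, coeff_mul_C, mul_comm]

lemma brP_monic (K : ℕ) (x : ℂ) : (brP K x).Monic :=
  monic_prod_of_monic _ _ fun _ _ => monic_X_add_C _

lemma brP_natDegree (K : ℕ) (x : ℂ) : (brP K x).natDegree = K := by
  unfold brP
  rw [natDegree_prod_of_monic _ _ fun _ _ => monic_X_add_C _]
  simp only [natDegree_X_add_C, sum_const, card_range, smul_eq_mul, mul_one]

lemma br_top (K : ℕ) (x : ℂ) : br K K x = 1 := by
  rw [br_def]
  have := (brP_monic K x).coeff_natDegree
  rwa [brP_natDegree] at this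

lemma br_gt {K i : ℕ} (h : K < i) (x : ℂ) : br K i x = 0 := by
  rw [br_def]
  exact coeff_eq_zero_of_natDegree_lt (by rwa [brP_natDegree])

lemma br_sub (K : ℕ) (x : ℂ) : br (K + 1) K x = (K + 1) * x + K * (K + 1) / 2 := by
  induction K with
  | zero => simp [br]
  | succ K ih =>
    rw [br_def] at *
    rw [brP_succ, mul_add, coeff_add, coeff_mul_C, coeff_mul_X, ih, ← br_def, br_top]
    push_cast
    ring

lemma br_two (x : ℂ) : br 2 0 x = x * (x + 1) := by
  rw [br_def]
  simp [brP, prod_range_succ, coeff_zero_eq_eval_zero]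

lemma brP_refl (K : ℕ) (y : ℂ) :
    brP K (-y - (K - 1)) = C ((-1) ^ K) * (brP K y).comp (C (-1) * X) := by
  unfold brP
  have h0 : C ((-1 : ℂ) ^ K) = ∏ _j ∈ range K, (C (-1 : ℂ)) := by
    rw [prod_const, card_range, C_pow]
  rw [← prod_range_reflect, Polynomial.prod_comp, h0, ← prod_mul_distrib]
  refine prod_congr rfl fun j hj => ?_
  have hj' : j + 1 ≤ K := by simpa using hj
  have e : ((K - 1 - j : ℕ) : ℂ) = K - 1 - j := by
    rw [Nat.sub_sub, Nat.cast_sub (by omega)]
    push_cast
    ring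
  rw [e]
  simp only [add_comp, X_comp, C_comp, C_neg, C_1, C_add, C_sub]
  ring

lemma br_refl (K i : ℕ) (y : ℂ) :
    br K i (-y - (K - 1)) = (-1) ^ (K + i) * br K i y := by
  rw [br_def, brP_refl, coeff_C_mul, comp_C_mul_X_coeff, br_def, pow_add]
  ring

end Vale.Agent.P269.H207
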