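import Vale.Agent.P269.H207.VirOps3

/-! Coefficients of elements of `Nov = ℂ((ħ))[[Q]]`. -/

set_option autoImplicit false

namespace Vale.Agent.P269.H207

open Finset

/-- the coefficient of `Q^d ħ^e` -/
noncomputable def cf (d : ℕ) (e : ℤ) (a : Nov) : ℂ := (PowerSeries.coeff d a).coeff e

lemma Nov_ext {a b : Nov} (h : ∀ d e, cf d e a = cf d e b) : a = b := by
  apply PowerSeries.ext
  intro d
  apply HahnSeries.ext
  funext e
  exact h d e

@[simp] lemma cf_zero (d : ℕ) (e : ℤ) : cf d e 0 = 0 := by simp [cf]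

lemma cf_add (d : ℕ) (e : ℤ) (a b : Nov) : cf d e (a + b) = cf d e a + cf d e b := by
  simp [cf]

lemma cf_neg (d : ℕ) (e : ℤ) (a : Nov) : cf d e (-a) = -cf d e a := by
  simp [cf]

lemma cf_sum {ι : Type*} (s : Finset ι) (d : ℕ) (e : ℤ) (a : ι → Nov) :
    cf d e (∑ i ∈ s, a i) = ∑ i ∈ s, cf d e (a i) := by
  classical
  induction s using Finset.induction_on with
  | empty => simp
  | insert x s hx ih => rw [Finset.sum_insert hx, Finset.sum_insert hx, cf_add, ih]

lemma algebraMap_Nov (r : ℂ) :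
    algebraMap ℂ Nov r = PowerSeries.C (HahnSeries.single (0 : ℤ) r) := by
  rw [PowerSeries.algebraMap_apply]
  congr 1
  have h1 : algebraMap ℂ (LaurentSeries ℂ) r
      = HahnSeries.ofPowerSeries ℤ ℂ (algebraMap ℂ (PowerSeries ℂ) r) := rfl
  rw [h1, PowerSeries.algebraMap_apply, HahnSeries.ofPowerSeries_C]
  rfl

lemma cf_map_mul (d : ℕ) (e : ℤ) (r : ℂ) (a : Nov) :
    cf d e (algebraMap ℂ Nov r * a) = r * cf d e a := by
  rw [algebraMap_Nov, cf, PowerSeries.coeff_C_mul, HahnSeries.coeff_single_mul, sub_zero, cf]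

lemma cf_hb_mul (d : ℕ) (e : ℤ) (a : Nov) : cf d e (hb * a) = cf d (e - 1) a := by
  rw [hb, cf, PowerSeries.coeff_C_mul, HahnSeries.coeff_single_mul, one_mul, cf]

lemma cf_hbi_mul (d : ℕ) (e : ℤ) (a : Nov) : cf d e (hbi * a) = cf d (e + 1) a := by
  rw [hbi, cf, PowerSeries.coeff_C_mul, HahnSeries.coeff_single_mul, one_mul, cf, sub_neg_eq_add]

lemma hb_mul_hbi : hb * hbi = 1 := by
  apply Nov_ext
  intro d e
  rw [cf_hb_mul, hbi]
  have : (1 : Nov) = PowerSeries.C (HahnSeries.single (0 : ℤ) (1 : ℂ)) := by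
    rw [← map_one (PowerSeries.C (R := LaurentSeries ℂ))]
    rfl
  rw [this]
  simp only [cf, PowerSeries.coeff_C]
  split_ifs
  · rw [HahnSeries.coeff_single, HahnSeries.coeff_single]
    by_cases he : e = 0
    · subst he; simp
    · rw [if_neg (by omega), if_neg he]
  · simp

lemma cf_mul_ne (d : ℕ) (e : ℤ) (a b : Nov) (h : cf d e (a * b) ≠ 0) :
    ∃ d1 d2 : ℕ, ∃ e1 e2 : ℤ, d1 + d2 = d ∧ e1 + e2 = e ∧ cf d1 e1 a ≠ 0 ∧ cf d2 e2 b ≠ 0 := by
  rw [cf, PowerSeries.coeff_mul] at h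
  have h' : (∑ p ∈ antidiagonal d, (PowerSeries.coeff p.1) a * (PowerSeries.coeff p.2) b).coeff e
      = ∑ p ∈ antidiagonal d, ((PowerSeries.coeff p.1) a * (PowerSeries.coeff p.2) b).coeff e := by
    exact HahnSeries.coeff_sum (R := ℂ) (Γ := ℤ) (s := antidiagonal d)
      (x := fun p => (PowerSeries.coeff p.1) a * (PowerSeries.coeff p.2) b) e
  rw [h'] at h
  obtain ⟨p, hp, h2⟩ := Finset.exists_ne_zero_of_sum_ne_zero h
  rw [HahnSeries.coeff_mul] at h2
  obtain ⟨q, hq, h3⟩ := Finset.exists_ne_zero_of_sum_ne_zero h2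
  refine ⟨p.1, p.2, q.1, q.2, by simpa using hp, ?_, left_ne_zero_of_mul h3,
    right_ne_zero_of_mul h3⟩
  have hq' := hq
  simp only [Finset.mem_antidiagonal, HahnSeries.mem_support] at hq'
  tauto

variable (X : Target)

/-- the coefficients of the potential -/
lemma cf_potential (GW : ℕ → ℕ → List X.V → ℂ) (d : ℕ) (e : ℤ) (L : List X.V) :
    cf d e (potential X GW L) = if 0 ≤ e + 1 then GW (e + 1).toNat d L else 0 := by
  rw [cf, potential, PowerSeries.coeff_mk, HahnSeries.coeff_single_mul, one_mul, sub_neg_eq_add]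
  by_cases h : 0 ≤ e + 1
  · rw [if_pos h]
    obtain ⟨g, hg⟩ := Int.eq_ofNat_of_zero_le h
    rw [hg]
    simp only [Int.toNat_natCast]
    have := HahnSeries.ofPowerSeries_apply_coeff (Γ := ℤ) (PowerSeries.mk fun g => GW g d L) g
    rw [this, PowerSeries.coeff_mk]
  · rw [if_neg h]
    rw [HahnSeries.ofPowerSeries_apply]
    apply HahnSeries.embDomain_of_notMem_range
    rintro ⟨n, hn⟩
    simp at hn
    omega

lemma cf_dv_AK (K : ℕ) (x : X.V) (f : List X.V → Nov) (d : ℕ) (e : ℤ) (L : List X.V) :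
    cf d e (dv (AK X Nov K x) f L) = dv (AK X ℂ K x) (fun L => cf d e (f L)) L := by
  unfold AK
  rw [dv_finsetSum, dv_finsetSum, Finset.sum_apply, Finset.sum_apply, cf_sum]
  refine Finset.sum_congr rfl fun i _ => ?_
  rw [dv_finsetSum, dv_finsetSum, Finset.sum_apply, Finset.sum_apply, cf_sum]
  refine Finset.sum_congr rfl fun b _ => ?_
  split_ifs
  · simp only [dv_single, Pi.smul_apply, smul_eq_mul, dd_apply, cf_map_mul]
    rfl
  · simp

lemma cf_vf_AK (K : ℕ) (f : List X.V → Nov) (d : ℕ) (e : ℤ) (L : List X.V) :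
    cf d e (vf (AK X Nov K) f L) = vf (AK X ℂ K) (fun L => cf d e (f L)) L := by
  induction L generalizing f with
  | nil => simp
  | cons x L ih =>
    rw [vf_cons, vf_cons, cf_add, cf_dv_AK, ih]
    rfl

lemma vf_low (f : List X.V → ℂ) (L : List X.V) : vf (AK X ℂ 0) f L = low X L f := by
  induction L generalizing f with
  | nil => rfl
  | cons x L ih =>
    obtain ⟨m, a⟩ := x
    rw [vf_cons, ih, low, AK_zero_apply]
    congr 1
    by_cases hm : m = 0
    · simp [hm]
    · simp [hm, dv_apply]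

end Vale.Agent.P269.H207
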