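import Vale.Agent.P269.H207.Super

/-!
Targets, Gromov-Witten correlators, the Virasoro operators and the total descendant potential.

Conventions.
* `φ_a` (`a : X.ι`) is a homogeneous basis of `H^*(X;ℂ)`, `φ_a ∈ H^{p a, q a}`.
* The variable `t^a_m` is `(m, a) : ℕ × X.ι`, of parity `p a + q a`; a formal super power series
  `f` in these variables is the function `List (ℕ × X.ι) → R` of its Taylor coefficients,
  `f [x₁, …, xₙ] = ∂_{xₙ} ⋯ ∂_{x₁} f (0)`, see `Super.lean`.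
* Curve classes are indexed by their degree `d : ℕ` (`H_2(X;ℤ) = ℤ`).
-/

set_option autoImplicit false

namespace Vale.Agent.P269.H207

open Finset

/-- Cohomological data of a connected compact Kähler manifold `X` with `H^1(X) = 0`
and `H_2(X;ℤ) = ℤ`, in a homogeneous basis `φ_a` of `H^*(X;ℂ)`. -/
structure Target where
  /-- complex dimension -/
  D : ℕ
  /-- index set of the basis `φ_a` -/
  ι : Type
  [fι : Fintype ι]
  [dι : DecidableEq ι]
  /-- `φ_a ∈ H^{p a, q a}(X)` -/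
  p : ι → ℕ
  q : ι → ℕ
  /-- the index of `1 ∈ H^0(X)` -/
  one : ι
  /-- the Poincaré pairing, `η a b = ∫_X φ_a φ_b` -/
  η : Matrix ι ι ℂ
  /-- the matrix of `c_1(X) ∪`: `c_1(X) ∪ φ_a = ∑_b R a b φ_b` -/
  R : Matrix ι ι ℂ
  /-- the degree of `c_1(X)` on the generator of the effective curve classes -/
  c1 : ℤ
  /-- the Chern number `∫_X c_1(X) c_{D-1}(X)` -/
  c1cD1 : ℂ
  p_one : p one = 0
  q_one : q one = 0
  /-- `H^0(X)` is one-dimensional -/
  eq_one : ∀ a, p a = 0 → q a = 0 → a = one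
  /-- `H^1(X) = 0` -/
  no_H1 : ∀ a, p a + q a ≠ 1
  η_symm : ∀ a b, η a b = (-1) ^ ((p a + q a) * (p b + q b)) * η b a
  η_type : ∀ a b, η a b ≠ 0 → p a + p b = D ∧ q a + q b = D
  η_nondeg : IsUnit η.det
  R_type : ∀ a b, R a b ≠ 0 → p b = p a + 1 ∧ q b = q a + 1
  /-- `∫ (c_1 φ_a) φ_b = ∫ φ_a (c_1 φ_b)` -/
  R_adj : ∀ a b, ∑ c, R a c * η c b = ∑ c, R b c * η a c
  /-- the identity of Libgober and Wood -/
  libgober_wood : ∑ a, (-1 : ℂ) ^ (p a + q a) * ((p a : ℂ) - D / 2) ^ 2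
    = D / 12 * (∑ a, (-1 : ℂ) ^ (p a + q a)) + c1cD1 / 6

attribute [instance] Target.fι Target.dι

variable (X : Target)

/-- the variables `t^a_m` -/
abbrev Target.V : Type := ℕ × X.ι

/-- parity of the variable `t^a_m` -/
def Target.par (x : X.V) : ℕ := X.p x.2 + X.q x.2

/-- the Euler characteristic -/
noncomputable def Target.chi : ℂ := ∑ a, (-1 : ℂ) ^ (X.p a + X.q a)

/-- the supertrace of `μ²`, `μ = p - D/2` on `H^{p,q}` -/
noncomputable def Target.strMu2 : ℂ :=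
  ∑ a, (-1 : ℂ) ^ (X.p a + X.q a) * ((X.p a : ℂ) - X.D / 2) ^ 2

/-- `b_a = μ_a + 1/2` -/
noncomputable def Target.b (a : X.ι) : ℂ := (X.p a : ℂ) - X.D / 2 + 1 / 2

/-- `[x]^k_i = e_{k+1-i}(x, x+1, …, x+k)`, for `K = k + 1`: the coefficient of `s^i` in
`∏_{j<K} (s + x + j)` -/
noncomputable def br (K i : ℕ) (x : ℂ) : ℂ :=
  (∏ j ∈ range K, (Polynomial.X + Polynomial.C (x + j))).coeff i

section Operators

variable {R' : Type*} [CommRing R'] [Algebra ℂ R']

/-- The linear part of `L_k`, `K = k + 1`: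
`τ_m(φ_a) ↦ ∑_i [b_a + m]^k_i τ_{m+k-i}(c_1^i φ_a)`. -/
noncomputable def AK (R' : Type*) [CommRing R'] [Algebra ℂ R'] (K : ℕ) (x : X.V) : X.V →₀ R' :=
  ∑ i ∈ range (K + 1), ∑ b : X.ι, if i + 1 ≤ x.1 + K then
    Finsupp.single (x.1 + K - 1 - i, b)
      (algebraMap ℂ R' (br K i (X.b x.2 + x.1) * (X.R ^ i) x.2 b)) else 0

/-- The second order part of `L_k`, `K = k + 1`:
`1/2 ∑ (-1)^{m+1} [-b_a - m]^k_i (c_1^i)^{ab} ∂_{b,k-1-i-m} ∂_{a,m}`. -/
noncomputable def BK (R' : Type*) [CommRing R'] [Algebra ℂ R'] (K : ℕ) : X.V × X.V →₀ R' :=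
  ∑ i ∈ range K, ∑ m ∈ range (K - 1 - i), ∑ a : X.ι, ∑ b : X.ι,
    Finsupp.single ((m, a), (K - 2 - i - m, b))
      (algebraMap ℂ R' (1 / 2 * (-1) ^ (m + 1) * br K i (-X.b a - m)
        * (X.η⁻¹ * X.R ^ i) a b))

/-- The quadratic part of `L_k`, `K = k + 1`: the coefficients of
`1/2 ∑ (∫ c_1^{k+1} φ_a φ_b) t^a_0 t^b_0`. -/
noncomputable def CK (R' : Type*) [CommRing R'] [Algebra ℂ R'] (K : ℕ) (x y : X.V) : R' :=
  if x.1 = 0 ∧ y.1 = 0 then algebraMap ℂ R' ((X.R ^ K * X.η) x.2 y.2) else 0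

/-- The constant of `L_k`, `K = k + 1`: it is nonzero only for `k = 0`. -/
noncomputable def cK (R' : Type*) [CommRing R'] [Algebra ℂ R'] (K : ℕ) : R' :=
  if K = 1 then algebraMap ℂ R' (X.chi / 16 - X.strMu2 / 4) else 0

end Operators

/-- The coefficient ring `ℂ((ħ))[[Q]]`. -/
abbrev Nov : Type := PowerSeries (LaurentSeries ℂ)

/-- `ħ` -/
noncomputable def hb : Nov := PowerSeries.C (HahnSeries.single (1 : ℤ) (1 : ℂ))

/-- `ħ⁻¹` -/
noncomputable def hbi : Nov := PowerSeries.C (HahnSeries.single (-1 : ℤ) (1 : ℂ))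

/-- The operator `L_k`, `K = k + 1`, with the dilaton shift `t^0_1 ↦ t^0_1 - 1`:
`L_k = ∑_{m,i} [b_a+m]^k_i (c_1^i)_a^b t̃^a_m ∂_{b,m+k-i}
  + ħ/2 ∑ (-1)^{m+1} [-b_a-m]^k_i (c_1^i)^{ab} ∂_{b,k-1-i-m} ∂_{a,m}
  + 1/(2ħ) ∑ (c_1^{k+1})_{ab} t^a_0 t^b_0 + δ_{k,0} (χ/16 - str(μ²)/4)`. -/
noncomputable def Vir (K : ℕ) (Z : List X.V → Nov) : List X.V → Nov :=
  -dv (AK X Nov K (1, X.one)) Z + vf (AK X Nov K) Z + hb • sec (BK X Nov K) Z
    + hbi • smul2 X.par (quad (CK X Nov K)) Z + cK X Nov K • Z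

/-- The free energy `∑_{g,d} ħ^{g-1} Q^d F_{g,d}`. -/
noncomputable def potential (GW : ℕ → ℕ → List X.V → ℂ) : List X.V → Nov :=
  fun L => PowerSeries.mk fun d =>
    HahnSeries.single (-1 : ℤ) (1 : ℂ)
      * HahnSeries.ofPowerSeries ℤ ℂ (PowerSeries.mk fun g => GW g d L)

/-- `Z = exp F` up to a constant factor: `∂_x Z = (∂_x F) Z` for all variables `x`. -/
def IsExp (F Z : List X.V → Nov) : Prop := ∀ x, dd x Z = smul2 X.par (dd x F) Z

/-- `low f` applied to a list is the sum over the entries `(m, a)` with `m ≥ 1` of `f` of the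
list with this entry replaced by `(m - 1, a)`. -/
def low {R' : Type*} [CommRing R'] : List X.V → (List X.V → R') → R'
  | [], _ => 0
  | (m, a) :: L, f => (if m = 0 then 0 else f ((m - 1, a) :: L)) + low L (dd (m, a) f)

/-- `lowR f` applied to a list is the sum over the entries `(m, a)` with `m ≥ 1` of `f` of the
list with this entry replaced by `(m - 1, c_1 φ_a)`. -/
noncomputable def lowR : List X.V → (List X.V → ℂ) → ℂ
  | [], _ => 0
  | (m, a) :: L, f => (if m = 0 then 0 else ∑ b : X.ι, X.R a b * f ((m - 1, b) :: L))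
      + lowR L (dd (m, a) f)

/-- Systems of descendant Gromov-Witten correlators
`GW g d [(m₁,a₁), …, (mₙ,aₙ)] = ⟨τ_{m₁}(φ_{a₁}) ⋯ τ_{mₙ}(φ_{aₙ})⟩_{g,d}` of the target `X`. -/
structure IsGW (GW : ℕ → ℕ → List X.V → ℂ) : Prop where
  /-- graded symmetry -/
  symm : ∀ g d, SSym X.par (GW g d)
  /-- there are no invariants in the unstable range -/
  unstable0 : ∀ L, L.length ≤ 2 → GW 0 0 L = 0
  unstable1 : GW 1 0 [] = 0
  /-- the dimension and Hodge type constraints -/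
  dim_p : ∀ g d L, GW g d L ≠ 0 →
    (L.map fun x => (x.1 : ℤ) + X.p x.2).sum = (1 - g) * (X.D - 3) + X.c1 * d + L.length
  dim_q : ∀ g d L, GW g d L ≠ 0 →
    (L.map fun x => (x.1 : ℤ) + X.q x.2).sum = (1 - g) * (X.D - 3) + X.c1 * d + L.length
  /-- the string equation -/
  string : ∀ g d L, GW g d ((0, X.one) :: L) = low X L (GW g d)
    + if g = 0 ∧ d = 0 then quad (CK X ℂ 0) L else 0
  /-- the dilaton equation -/
  dilaton : ∀ g d L, GW g d ((1, X.one) :: L) = (2 * g - 2 + L.length) * GW g d L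
    + if g = 1 ∧ d = 0 ∧ L = [] then X.chi / 24 else 0
  /-- the divisor equation for `c_1(X)` -/
  divisor : ∀ g d L, ∑ b : X.ι, X.R X.one b * GW g d ((0, b) :: L)
    = X.c1 * d * GW g d L + lowR X L (GW g d)
      + (if g = 0 ∧ d = 0 then quad (CK X ℂ 1) L else 0)
      + if g = 1 ∧ d = 0 ∧ L = [] then -X.c1cD1 / 24 else 0
  /-- the genus zero topological recursion relation -/
  trr : ∀ (d m : ℕ) (a : X.ι) (x y : X.V),
    dd y (dd x (dd (m + 1, a) (GW 0 d)))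
      = ∑ e ∈ antidiagonal d, ∑ c : X.ι, ∑ c' : X.ι, X.η⁻¹ c c' •
        smul2 X.par (tw X.par (X.par (0, c') + X.par x + X.par y)
            (dd (0, c) (dd (m, a) (GW 0 e.1))))
          (dd y (dd x (dd (0, c') (GW 0 e.2))))

end Vale.Agent.P269.H207
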