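import Vale.Agent.P269.H207.Quad

/-! The descent lemma: if `F` satisfies the string equation, then the Virasoro expressions `z_k`
satisfy `∂_o z_k = D_S z_k + (k+1) z_{k-1}`. -/

set_option autoImplicit false

namespace Vale.Agent.P269.H207

variable {α R : Type*} [CommRing R] {par : α → ℕ}

lemma HasPar_lin {c : α → R} {n : ℕ} (hc : ∀ y, c y ≠ 0 → par y % 2 = n % 2) :
    HasPar par n (lin c) := by
  intro L hL
  match L with
  | [] => rfl
  | [y] =>
    by_contra h
    exact hL (by simpa using hc y h)
  | y :: z :: L => rfl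

lemma dv_finsetSum {ι : Type*} (s : Finset ι) (v : ι → α →₀ R) (f : List α → R) :
    dv (∑ i ∈ s, v i) f = ∑ i ∈ s, dv (v i) f := by
  classical
  induction s using Finset.induction_on with
  | empty => simp
  | insert a s ha ih => rw [Finset.sum_insert ha, Finset.sum_insert ha, dv_add_left, ih]

/-- contraction of the first slot of `β` with `η` -/
noncomputable def ctL (par : α → ℕ) (β : α × α →₀ R) (η : α → α → R) (z : α) : α →₀ R :=
  ∑ p ∈ β.support, Finsupp.single p.2 (β p * ((-1) ^ (par p.2 * par z) * η p.1 z))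

/-- contraction of the second slot of `β` with `η` -/
noncomputable def ctR (β : α × α →₀ R) (η : α → α → R) (z : α) : α →₀ R :=
  ∑ p ∈ β.support, Finsupp.single p.1 (β p * η p.2 z)

lemma spl_eq_sum (β : α × α →₀ R) (f g : List α → R) (L : List α) :
    spl par β f g L
      = ∑ p ∈ β.support, β p * smul2 par (tw par (par p.2) (dd p.1 f)) (dd p.2 g) L := rfl

lemma contr_left {β : α × α →₀ R} (hβ : ∀ p ∈ β.support, par p.1 % 2 = par p.2 % 2)
    {η : α → α → R} (hη : ∀ x y, η x y ≠ 0 → par x % 2 = par y % 2)
    {f : List α → R} (hf : SSym par f) :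
    spl par β (quad η) f = vf (ctL par β η) f := by
  classical
  funext L
  induction L generalizing f with
  | nil => simp [spl_apply, dd_quad]
  | cons z L ih =>
    have e1 : ∀ p ∈ β.support,
        smul2 par (tw par (par p.2) (dd p.1 (quad η))) (dd p.2 f) (z :: L)
          = ((-1) ^ (par p.2 * par z) * η p.1 z) * f (p.2 :: L)
            + smul2 par (tw par (par p.2) (dd p.1 (quad η))) (dd p.2 (dd z f)) L := by
      intro p hp
      rw [smul2_cons, dd_quad, dd_tw, dd_lin, tw_cst, smul2_smul_left, smul2_cst_left]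
      have h2 : smul2 par (tw par (par z) (tw par (par p.2) (lin (η p.1)))) (dd z (dd p.2 f))
          = smul2 par (tw par (par p.2) (lin (η p.1))) (dd p.2 (dd z f)) := by
        rw [tw_tw, add_comm, ← tw_tw,
          tw_of_hasPar (HasPar_lin (n := par p.1) (par := par)
            (fun y hy => (hη p.1 y hy).symm)) (par z),
          hf.swap z p.2, tw_smul, smul2_smul_left, smul2_smul_right, smul_smul, ← pow_add,
          neg_one_pow_mod (par z * par p.1 + par z * par p.2) 0, pow_zero, one_smul]
        have := hβ p hp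
        rw [← mul_add, Nat.mul_mod]
        have h3 : (par p.1 + par p.2) % 2 = 0 := by omega
        rw [h3]
        simp
      rw [h2]
      simp only [Pi.smul_apply, smul_eq_mul, dd_apply]
      ring
    rw [spl_eq_sum, Finset.sum_congr rfl fun p hp => by rw [e1 p hp, mul_add],
      Finset.sum_add_distrib, ← spl_eq_sum, ih (hf.dd z), vf_cons]
    congr 1
    rw [ctL, dv_finsetSum, Finset.sum_apply]
    refine Finset.sum_congr rfl fun p _ => ?_
    simp only [dv_single, Pi.smul_apply, dd_apply, smul_eq_mul]
    ring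

lemma contr_right_aux {β : α × α →₀ R} (hβ : ∀ p ∈ β.support, par p.1 % 2 = par p.2 % 2)
    {η : α → α → R} (hη : ∀ x y, η x y ≠ 0 → par x % 2 = par y % 2)
    {f : List α → R} (hf : SSym par f) (L : List α) :
    ∑ p ∈ β.support, β p * smul2 par (lin (η p.2)) (dd p.1 f) L = vf (ctR β η) f L := by
  classical
  induction L generalizing f with
  | nil => simp
  | cons z L ih =>
    have e1 : ∀ p ∈ β.support,
        smul2 par (lin (η p.2)) (dd p.1 f) (z :: L)
          = η p.2 z * f (p.1 :: L) + smul2 par (lin (η p.2)) (dd p.1 (dd z f)) L := by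
      intro p hp
      rw [smul2_cons, dd_lin, smul2_cst_left]
      have h2 : smul2 par (tw par (par z) (lin (η p.2))) (dd z (dd p.1 f))
          = smul2 par (lin (η p.2)) (dd p.1 (dd z f)) := by
        rw [tw_of_hasPar (HasPar_lin (n := par p.2) (par := par)
            (fun y hy => (hη p.2 y hy).symm)) (par z),
          hf.swap z p.1, smul2_smul_left, smul2_smul_right, smul_smul, ← pow_add,
          neg_one_pow_mod (par z * par p.2 + par z * par p.1) 0, pow_zero, one_smul]
        have := hβ p hp
        rw [← mul_add, Nat.mul_mod]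
        have h3 : (par p.2 + par p.1) % 2 = 0 := by omega
        rw [h3]
        simp
      rw [h2]
      simp only [Pi.smul_apply, smul_eq_mul, dd_apply]
    rw [Finset.sum_congr rfl fun p hp => by rw [e1 p hp, mul_add], Finset.sum_add_distrib,
      ih (hf.dd z), vf_cons]
    congr 1
    rw [ctR, dv_finsetSum, Finset.sum_apply]
    refine Finset.sum_congr rfl fun p _ => ?_
    simp only [dv_single, Pi.smul_apply, dd_apply, smul_eq_mul]
    ring

lemma contr_right {β : α × α →₀ R} (hβ : ∀ p ∈ β.support, par p.1 % 2 = par p.2 % 2)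
    {η : α → α → R} (hη : ∀ x y, η x y ≠ 0 → par x % 2 = par y % 2)
    {f : List α → R} (hf : SSym par f) (hf0 : HasPar par 0 f) :
    spl par β f (quad η) = vf (ctR β η) f := by
  classical
  funext L
  rw [← contr_right_aux hβ hη hf, spl_eq_sum]
  refine Finset.sum_congr rfl fun p hp => ?_
  have h1 : HasPar par (par p.1) (dd p.1 f) := (hf0.dd p.1).congr (by simp)
  have h2 : HasPar par (par p.2) (lin (η p.2)) :=
    HasPar_lin (fun y hy => (hη p.2 y hy).symm)
  rw [dd_quad, tw_of_hasPar h1, smul2_smul_left, smul2_comm h1 h2, smul_smul, ← pow_add,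
    neg_one_pow_mod (par p.2 * par p.1 + par p.1 * par p.2) 0
      (by rw [mul_comm (par p.1)]; omega), pow_zero, one_smul]

lemma dd_dv {f : List α → R} (hf : SSym par f) {o : α} (ho : par o % 2 = 0) (v : α →₀ R) :
    dd o (dv v f) = dv v (dd o f) := by
  funext L
  simp only [dd_apply, dv_apply]
  refine Finsupp.sum_congr fun x _ => ?_
  have := congrFun (hf.swap_even ho x) L
  simp only [dd_apply] at this
  rw [this]

/-- The expression `Z⁻¹ L Z` (times `ħ`) for the operator
`L = -∂_{A e} + Σ t^x ∂_{A x} + ħ Σ β^{xy} ∂_y ∂_x + (1/2ħ) C(t,t) + c/ħ`, `Z = exp (F/ħ)`. -/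
noncomputable def zz (par : α → ℕ) (hb : R) (e : α) (A : α → α →₀ R) (β : α × α →₀ R)
    (C : α → α → R) (c : R) (f : List α → R) : List α → R :=
  -dv (A e) f + vf A f + hb • sec β f + spl par β f f + quad C + cst c

theorem descent {hb K : R} {o e : α} (ho : par o % 2 = 0)
    {S A A' : α → α →₀ R} (hS : EvenOp par S)
    {β β' : α × α →₀ R} (hβ : ∀ p ∈ β.support, par p.1 % 2 = par p.2 % 2)
    {η C C' : α → α → R} (hη : ∀ x y, η x y ≠ 0 → par x % 2 = par y % 2)
    {c c' : R} {f : List α → R} (hf : SSym par f) (hf0 : HasPar par 0 f)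
    (string : dd o f = vf S f + quad η)
    (R1 : ap S (A e) = A o + K • A' e)
    (R2 : ∀ z, ap S (A z) - ap A (S z) + (ctL par β η z + ctR β η z) = K • A' z)
    (R3 : lact S β + ract S β = K • β')
    (R4 : ∀ y, C o y = (A e).sum fun w a => a * η w y)
    (R5 : ∀ x y, ((A x).sum fun w a => a * η w y) + ((A y).sum fun w a => a * η x w)
      = ((S x).sum fun w a => a * C w y) + ((S y).sum fun w a => a * C x w) + K * C' x y)
    (R6 : hb * (β.sum fun p b => b * η p.1 p.2) = K * c') :
    dd o (zz par hb e A β C c f) = vf S (zz par hb e A β C c f)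
      + K • zz par hb e A' β' C' c' f := by
  classical
  have t1 : dd o (dv (A e) f) = dv (A o) f + K • dv (A' e) f + vf S (dv (A e) f)
      + lin (C o) := by
    rw [dd_dv hf ho, string, dv_add, dv_vf, R1, dv_add_left, dv_smul_left]
    congr 1
    funext L
    match L with
    | [] => simp [dv_apply]
    | [y] => simp [dv_apply, R4 y]
    | y :: z :: L => simp [dv_apply]
  have t2 : dd o (vf A f) = dv (A o) f + vf S (vf A f)
      + vf (fun x => ap S (A x) - ap A (S x)) f + vf A (quad η) := by
    rw [dd_vf, string, vf_add, ← vf_comm A S f]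
    abel
  have t3 : dd o (hb • sec β f) = hb • (K • sec β' f + vf S (sec β f))
      + cst (K * c') := by
    rw [dd_smul, dd_sec hf ho, string, sec_add, sec_vf, R3, sec_smul_left, smul_add]
    congr 1
    funext L
    match L with
    | [] => simp only [Pi.smul_apply, sec_apply, quad_two, smul_eq_mul, cst_nil, R6]
    | y :: L => simp [sec_apply]
  have t4 : dd o (spl par β f f) = K • spl par β' f f + vf S (spl par β f f)
      + (spl par β (quad η) f + spl par β f (quad η)) := by
    rw [dd_spl hf hf ho, string, spl_add_mid, spl_add_right]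
    have := spl_vf (par := par) hS β f f
    rw [R3, spl_smul_left] at this
    rw [← this]
    abel
  rw [contr_left hβ hη hf, contr_right hβ hη hf hf0] at t4
  have t5 : vf (fun x => ap S (A x) - ap A (S x)) f
      + (vf (ctL par β η) f + vf (ctR β η) f)
      = K • vf A' f := by
    rw [← vf_add_left, ← vf_add_left, ← vf_smul_left]
    congr 1
    funext z
    exact R2 z
  have t6 : vf A (quad η) = vf S (quad C) + K • quad C' := by
    rw [vf_quad, vf_quad, ← quad_smul, ← quad_add]
    congr 1
    funext x y
    exact R5 x y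
  unfold zz
  simp only [dd_add, dd_neg, vf_add, vf_neg, vf_smul, vf_cst, dd_cst, dd_quad, smul_add,
    smul_neg]
  rw [t1, t2, t3, t4]
  have t7 : K • cst c' = (cst (K * c') : List α → R) := by
    funext L
    cases L <;> simp
  rw [t6, t7, ← t5]
  simp only [smul_add]
  have t8 : hb • K • sec β' f = K • hb • sec β' f := smul_comm _ _ _
  rw [t8]
  abel

end Vale.Agent.P269.H207
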