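import Vale.Agent.P269.H207.Vanish

/-! The total potential `Z = exp F`: `L_k Z = z_k Z`, existence and uniqueness of `Z`. -/

set_option autoImplicit false

namespace Vale.Agent.P269.H207

open Finset

section

variable {α R : Type*} [CommRing R] {par : α → ℕ}

lemma smul2_congr {f f' g g' : List α → R} (L : List α)
    (hf : ∀ M : List α, M.length ≤ L.length → f M = f' M)
    (hg : ∀ M : List α, M.length ≤ L.length → g M = g' M) :
    smul2 par f g L = smul2 par f' g' L := by
  induction L generalizing f f' g g' with
  | nil => rw [smul2_nil, smul2_nil, hf [] (le_refl _), hg [] (le_refl _)]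
  | cons x L ih =>
    rw [smul2_cons, smul2_cons]
    congr 1
    · exact ih (fun M hM => hf _ (by simpa using hM))
        (fun M hM => hg _ (hM.trans (by simp)))
    · refine ih (fun M hM => ?_) (fun M hM => hg _ (by simpa using hM))
      rw [tw_apply, tw_apply, hf _ (hM.trans (by simp))]

lemma HasPar.vf {A : α → α →₀ R} (hA : EvenOp par A) {i : ℕ} {f : List α → R}
    (hf : HasPar par i f) : HasPar par i (vf A f) := by
  intro L
  induction L generalizing f i with
  | nil => intro _; rfl
  | cons x L ih =>
    intro hL
    rw [parL_cons] at hL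
    rw [vf_cons, ih (hf.dd x) (by omega), add_zero, dv_apply]
    refine Finset.sum_eq_zero fun y hy => ?_
    have h1 := hA x y hy
    show _ * _ = _
    rw [hf (y :: L) (by rw [parL_cons]; omega), mul_zero]

variable {F Z : List α → R}

lemma exp_dv (hZ : ∀ x, dd x Z = smul2 par (dd x F) Z) (v : α →₀ R) :
    dv v Z = smul2 par (dv v F) Z := by
  rw [dv_eq_sum, dv_eq_sum]
  unfold Finsupp.sum
  rw [smul2_sum_left]
  refine Finset.sum_congr rfl fun x _ => ?_
  show v x • dd x Z = smul2 par (v x • dd x F) Z
  rw [hZ x, smul2_smul_left]

lemma exp_vf (hZ : ∀ x, dd x Z = smul2 par (dd x F) Z) (hF : HasPar par 0 F)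
    {A : α → α →₀ R} (hA : EvenOp par A) : vf A Z = smul2 par (vf A F) Z := by
  have key : ∀ n : ℕ, ∀ L : List α, L.length ≤ n → vf A Z L = smul2 par (vf A F) Z L := by
    intro n
    induction n with
    | zero =>
      intro L hL
      have : L = [] := List.length_eq_zero_iff.mp (by omega)
      subst this
      simp
    | succ n ih =>
      intro L hL
      cases L with
      | nil => simp
      | cons x L =>
        have hL' : L.length ≤ n := by simpa using hL
        have hpar : HasPar par 0 (vf A F) := hF.vf hA
        have e1 : smul2 par (dd x F) (vf A Z) L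
            = smul2 par (dd x F) (smul2 par (vf A F) Z) L :=
          smul2_congr L (fun _ _ => rfl) (fun M hM => ih M (hM.trans hL'))
        have e2 : smul2 par (dd x F) (smul2 par (vf A F) Z)
            = smul2 par (vf A F) (smul2 par (dd x F) Z) := by
          rw [← smul2_assoc, ← smul2_assoc, smul2_comm (hF.dd x) hpar]
          simp
        rw [vf_cons, smul2_cons, exp_dv hZ, hZ x, vf_smul2 hA, Pi.add_apply, e1, e2, dd_vf,
          smul2_add_left, Pi.add_apply, tw_of_hasPar hpar]
        simp only [mul_zero, pow_zero, one_smul]
        ring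
  funext L
  exact key _ L (le_refl _)

lemma exp_sec (hZ : ∀ x, dd x Z = smul2 par (dd x F) Z) (β : α × α →₀ R) :
    sec β Z = smul2 par (sec β F + spl par β F F) Z := by
  classical
  induction β using Finsupp.induction_linear with
  | zero => simp
  | add v w hv hw =>
    rw [sec_add_left, hv, hw, sec_add_left, spl_add_left, ← smul2_add_left]
    congr 1
    abel
  | single p c =>
    rw [sec_single, sec_single, spl_single, hZ p.1, dd_smul2, hZ p.2, ← smul2_assoc,
      smul2_add_left, smul2_smul_left, smul2_smul_left, smul_add]

/-- approximations of `exp` -/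
def expN (par : α → ℕ) (F : List α → R) : ℕ → List α → R
  | 0, _ => 1
  | _ + 1, [] => 1
  | n + 1, x :: L => smul2 par (dd x F) (expN par F n) L

lemma expN_stable (F : List α → R) (L : List α) :
    ∀ n m : ℕ, L.length ≤ n → L.length ≤ m → expN par F n L = expN par F m L := by
  have key : ∀ k : ℕ, ∀ L : List α, L.length ≤ k → ∀ n m : ℕ, L.length ≤ n → L.length ≤ m →
      expN par F n L = expN par F m L := by
    intro k
    induction k with
    | zero =>
      intro L hL n m _ _
      have : L = [] := List.length_eq_zero_iff.mp (by omega)
      subst this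
      cases n <;> cases m <;> rfl
    | succ k ih =>
      intro L hL n m hn hm
      cases L with
      | nil => cases n <;> cases m <;> rfl
      | cons x L =>
        cases n with
        | zero => simp at hn
        | succ n =>
          cases m with
          | zero => simp at hm
          | succ m =>
            have hL' : L.length ≤ k := by simpa using hL
            have hn' : L.length ≤ n := by simpa using hn
            have hm' : L.length ≤ m := by simpa using hm
            exact smul2_congr L (fun _ _ => rfl) (fun M hM =>
              ih M (hM.trans hL') n m (hM.trans hn') (hM.trans hm'))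
  exact key L.length L (le_refl _)

/-- the exponential of `F - F(0)` -/
def sexp (par : α → ℕ) (F : List α → R) : List α → R := fun L => expN par F L.length L

lemma sexp_nil (F : List α → R) : sexp par F [] = 1 := rfl

lemma dd_sexp (F : List α → R) (x : α) :
    dd x (sexp par F) = smul2 par (dd x F) (sexp par F) := by
  funext L
  exact smul2_congr L (fun _ _ => rfl) (fun M hM =>
    expN_stable F M _ _ hM (le_refl _))

/-- `L Z = z Z` -/
lemma op_exp (hZ : ∀ x, dd x Z = smul2 par (dd x F) Z) (hF : HasPar par 0 F)
    {A : α → α →₀ R} (hA : EvenOp par A) (e : α) (β : α × α →₀ R) (C : α → α → R)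
    (h hi c : R) :
    -dv (A e) Z + vf A Z + h • sec β Z + hi • smul2 par (quad C) Z + c • Z
      = smul2 par (zz par 1 e A (h • β) (fun x y => hi * C x y) c F) Z := by
  have e1 : (quad fun x y => hi * C x y) = hi • quad C := quad_smul _ _
  have e2 : h • smul2 par (sec β F + spl par β F F) Z
      = smul2 par (h • sec β F) Z + smul2 par (h • spl par β F F) Z := by
    rw [smul2_add_left, smul_add, smul2_smul_left, smul2_smul_left]
  unfold zz
  rw [exp_dv hZ, exp_vf hZ hF hA, exp_sec hZ, e1, e2, sec_smul_left, spl_smul_left, one_smul]
  rw [smul2_add_left, smul2_add_left, smul2_add_left, smul2_add_left, smul2_add_left,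
    smul2_neg_left, smul2_smul_left hi, smul2_cst_left]
  abel

/-- uniqueness of the exponential -/
lemma exp_unique {Z' : List α → R} (hZ : ∀ x, dd x Z = smul2 par (dd x F) Z)
    (hZ' : ∀ x, dd x Z' = smul2 par (dd x F) Z') (h0 : Z [] = Z' []) : Z = Z' := by
  have key : ∀ n : ℕ, ∀ L : List α, L.length ≤ n → Z L = Z' L := by
    intro n
    induction n with
    | zero =>
      intro L hL
      have : L = [] := List.length_eq_zero_iff.mp (by omega)
      rw [this, h0]
    | succ n ih =>
      intro L hL
      cases L with
      | nil => exact h0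
      | cons x L =>
        have e1 := congrFun (hZ x) L
        have e2 := congrFun (hZ' x) L
        rw [dd_apply] at e1 e2
        rw [e1, e2]
        exact smul2_congr L (fun _ _ => rfl) (fun M hM =>
          ih M (hM.trans (by simpa using hL)))
  funext L
  exact key _ L (le_refl _)

end

variable {X : Target}

/-- `L_k Z = z_k Z` -/
theorem Vir_eq (K : ℕ) {F Z : List X.V → Nov} (hF : HasPar X.par 0 F) (hZ : IsExp X F Z) :
    Vir X K Z = smul2 X.par (zN X K F) Z :=
  op_exp hZ hF (AK_even X K) (1, X.one) (BK X Nov K) (CK X Nov K) hb hbi (cK X Nov K)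

/-- the exponential exists -/
theorem exists_exp (F : List X.V → Nov) : ∃ Z, IsExp X F Z ∧ Z [] = 1 :=
  ⟨sexp X.par F, fun x => dd_sexp F x, rfl⟩

end Vale.Agent.P269.H207
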