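import Vale.Agent.P269.H207.ExpZ

/-! The coefficient of `ħ⁻¹` of the Virasoro expression: the genus zero constraint. -/

set_option autoImplicit false

namespace Vale.Agent.P269.H207

open Finset

/-- the coefficient of `ħ^e`, a power series in `Q` -/
noncomputable def lead (e : ℤ) (a : Nov) : PowerSeries ℂ := PowerSeries.mk fun d => cf d e a

lemma coeff_lead (e : ℤ) (a : Nov) (d : ℕ) : PowerSeries.coeff d (lead e a) = cf d e a := by
  rw [lead, PowerSeries.coeff_mk]

lemma lead_add (e : ℤ) (a b : Nov) : lead e (a + b) = lead e a + lead e b := by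
  ext d; rw [map_add, coeff_lead, coeff_lead, coeff_lead, cf_add]

lemma lead_neg (e : ℤ) (a : Nov) : lead e (-a) = -lead e a := by
  ext d; rw [map_neg, coeff_lead, coeff_lead, cf_neg]

@[simp] lemma lead_zero (e : ℤ) : lead e 0 = 0 := by
  ext d; rw [coeff_lead, cf_zero, map_zero]

lemma lead_sum {ι : Type*} (s : Finset ι) (e : ℤ) (a : ι → Nov) :
    lead e (∑ i ∈ s, a i) = ∑ i ∈ s, lead e (a i) := by
  classical
  induction s using Finset.induction_on with
  | empty => simp
  | insert x s hx ih => rw [Finset.sum_insert hx, Finset.sum_insert hx, lead_add, ih]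

lemma lead_map_mul (e : ℤ) (r : ℂ) (a : Nov) :
    lead e (algebraMap ℂ Nov r * a) = algebraMap ℂ (PowerSeries ℂ) r * lead e a := by
  ext d
  rw [coeff_lead, cf_map_mul, PowerSeries.algebraMap_apply, PowerSeries.coeff_C_mul, coeff_lead]
  rfl

lemma lead_hb_mul (e : ℤ) (a : Nov) : lead e (hb * a) = lead (e - 1) a := by
  ext d; rw [coeff_lead, cf_hb_mul, coeff_lead]

lemma lead_hbi_mul (e : ℤ) (a : Nov) : lead e (hbi * a) = lead (e + 1) a := by
  ext d; rw [coeff_lead, cf_hbi_mul, coeff_lead]

lemma lead_neg_one_pow_mul (k : ℕ) (e : ℤ) (a : Nov) :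
    lead e ((-1) ^ k * a) = (-1) ^ k * lead e a := by
  induction k generalizing a with
  | zero => simp
  | succ k ih =>
    have h : (-1 : Nov) ^ (k + 1) * a = (-1) ^ k * (-a) := by ring
    rw [h, ih, lead_neg]
    ring

/-- leading coefficients are multiplicative -/
lemma lead_mul (n m : ℤ) (a b : Nov) (ha : ∀ d e, cf d e a ≠ 0 → n ≤ e)
    (hb' : ∀ d e, cf d e b ≠ 0 → m ≤ e) : lead (n + m) (a * b) = lead n a * lead m b := by
  ext d
  rw [coeff_lead, cf, PowerSeries.coeff_mul, PowerSeries.coeff_mul]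
  have h' : (∑ p ∈ antidiagonal d, (PowerSeries.coeff p.1) a * (PowerSeries.coeff p.2) b).coeff
      (n + m) = ∑ p ∈ antidiagonal d,
        ((PowerSeries.coeff p.1) a * (PowerSeries.coeff p.2) b).coeff (n + m) :=
    HahnSeries.coeff_sum (R := ℂ) (Γ := ℤ) (s := antidiagonal d)
      (x := fun p => (PowerSeries.coeff p.1) a * (PowerSeries.coeff p.2) b) (n + m)
  rw [h']
  refine Finset.sum_congr rfl fun p _ => ?_
  rw [coeff_lead, coeff_lead, HahnSeries.coeff_mul]
  by_cases h0 : cf p.1 n a = 0 ∨ cf p.2 m b = 0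
  · have hz : cf p.1 n a * cf p.2 m b = 0 := by
      rcases h0 with h0 | h0 <;> simp [h0]
    rw [hz]
    refine Finset.sum_eq_zero fun q hq => ?_
    simp only [Finset.mem_antidiagonal, HahnSeries.mem_support] at hq
    have h1 := ha p.1 q.1 hq.1
    have h2 := hb' p.2 q.2 hq.2.1
    have h3 : q.1 = n := by omega
    have h4 : q.2 = m := by omega
    rcases h0 with h0 | h0
    · exact absurd (by rw [h3]; exact h0) hq.1
    · exact absurd (by rw [h4]; exact h0) hq.2.1
  · have h0' := not_or.mp h0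
    rw [Finset.sum_eq_single (n, m)]
    · rfl
    · intro q hq hne
      simp only [Finset.mem_antidiagonal, HahnSeries.mem_support] at hq
      have h1 := ha p.1 q.1 hq.1
      have h2 := hb' p.2 q.2 hq.2.1
      exfalso
      apply hne
      ext
      · show q.1 = n; omega
      · show q.2 = m; omega
    · intro hne
      exfalso
      apply hne
      simp only [Finset.mem_antidiagonal, HahnSeries.mem_support]
      exact ⟨h0'.1, h0'.2, trivial⟩

variable (X : Target)

/-- order in `ħ` at least `n` -/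
def Ord (n : ℤ) (f : List X.V → Nov) : Prop := ∀ L d e, cf d e (f L) ≠ 0 → n ≤ e

variable {X}

lemma Ord.dd {n : ℤ} {f : List X.V → Nov} (hf : Ord X n f) (x : X.V) : Ord X n (dd x f) :=
  fun L d e h => hf (x :: L) d e h

lemma Ord.tw {n : ℤ} {f : List X.V → Nov} (hf : Ord X n f) (k : ℕ) :
    Ord X n (tw X.par k f) := by
  intro L d e h
  rw [tw_apply, cf_neg_one_pow_mul] at h
  exact hf L d e (right_ne_zero_of_mul h)

lemma lead_smul2 {n m : ℤ} {f g : List X.V → Nov} (hf : Ord X n f) (hg : Ord X m g)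
    (L : List X.V) :
    lead (n + m) (smul2 X.par f g L)
      = smul2 X.par (fun M => lead n (f M)) (fun M => lead m (g M)) L := by
  induction L generalizing f g with
  | nil => exact lead_mul n m _ _ (hf []) (hg [])
  | cons x L ih =>
    rw [smul2_cons, smul2_cons, lead_add, ih (hf.dd x) hg, ih (hf.tw _) (hg.dd x)]
    congr 2
    funext M
    rw [tw_apply, tw_apply, lead_neg_one_pow_mul]

lemma lead_dv_AK (K : ℕ) (x : X.V) (f : List X.V → Nov) (e : ℤ) (L : List X.V) :
    lead e (dv (AK X Nov K x) f L)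
      = dv (AK X (PowerSeries ℂ) K x) (fun L => lead e (f L)) L := by
  unfold AK
  rw [dv_finsetSum, dv_finsetSum, Finset.sum_apply, Finset.sum_apply, lead_sum]
  refine Finset.sum_congr rfl fun i _ => ?_
  rw [dv_finsetSum, dv_finsetSum, Finset.sum_apply, Finset.sum_apply, lead_sum]
  refine Finset.sum_congr rfl fun b _ => ?_
  split_ifs
  · simp only [dv_single, Pi.smul_apply, smul_eq_mul, dd_apply, lead_map_mul]
  · simp

lemma lead_vf_AK (K : ℕ) (f : List X.V → Nov) (e : ℤ) (L : List X.V) :
    lead e (vf (AK X Nov K) f L)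
      = vf (AK X (PowerSeries ℂ) K) (fun L => lead e (f L)) L := by
  induction L generalizing f with
  | nil => simp
  | cons x L ih =>
    rw [vf_cons, vf_cons, lead_add, lead_dv_AK, ih]
    rfl

lemma spl_BK_eq {R' : Type*} [CommRing R'] [Algebra ℂ R'] (K : ℕ) (f g : List X.V → R')
    (L : List X.V) :
    spl X.par (BK X R' K) f g L
      = ∑ i ∈ range K, ∑ m ∈ range (K - 1 - i), ∑ a : X.ι, ∑ b : X.ι,
        algebraMap ℂ R' (bc X K i m a b)
          * smul2 X.par (tw X.par (X.par (K - 2 - i - m, b)) (dd (m, a) f))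
            (dd (K - 2 - i - m, b) g) L := by
  unfold BK
  rw [spl_finsetSum, Finset.sum_apply]
  refine Finset.sum_congr rfl fun i _ => ?_
  rw [spl_finsetSum, Finset.sum_apply]
  refine Finset.sum_congr rfl fun m _ => ?_
  rw [spl_finsetSum, Finset.sum_apply]
  refine Finset.sum_congr rfl fun a _ => ?_
  rw [spl_finsetSum, Finset.sum_apply]
  refine Finset.sum_congr rfl fun b _ => ?_
  rw [spl_single]
  rfl

lemma lead_sec {F : List X.V → Nov} (hF : Ord X (-1) F) (K : ℕ) (L : List X.V) :
    lead (-1) (sec (hb • BK X Nov K) F L) = 0 := by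
  rw [sec_smul_left, Pi.smul_apply, smul_eq_mul, lead_hb_mul]
  ext d
  rw [coeff_lead, map_zero]
  have e : sec (BK X Nov K) F
      = ∑ p ∈ (BK X Nov K).support, (BK X Nov K p) • H207.dd p.2 (H207.dd p.1 F) := by
    funext L
    simp [sec_apply, Finsupp.sum]
  rw [e, Finset.sum_apply, cf_sum]
  refine Finset.sum_eq_zero fun p _ => ?_
  obtain ⟨r, hr⟩ := BK_coeff (X := X) K p
  rw [hr, Pi.smul_apply, smul_eq_mul, cf_map_mul]
  by_contra hne
  have := hF (p.1 :: p.2 :: L) d (-1 - 1) (right_ne_zero_of_mul hne)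
  omega

lemma lead_spl {F : List X.V → Nov} (hF : Ord X (-1) F) (K : ℕ) (L : List X.V) :
    lead (-1) (spl X.par (hb • BK X Nov K) F F L)
      = spl X.par (BK X (PowerSeries ℂ) K) (fun M => lead (-1) (F M))
            (fun M => lead (-1) (F M)) L := by
  rw [spl_smul_left, Pi.smul_apply, smul_eq_mul, lead_hb_mul, spl_BK_eq, spl_BK_eq, lead_sum]
  refine Finset.sum_congr rfl fun i _ => ?_
  rw [lead_sum]
  refine Finset.sum_congr rfl fun m _ => ?_
  rw [lead_sum]
  refine Finset.sum_congr rfl fun a _ => ?_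
  rw [lead_sum]
  refine Finset.sum_congr rfl fun b _ => ?_
  rw [lead_map_mul, show (-1 : ℤ) - 1 = -1 + -1 by norm_num,
    lead_smul2 ((hF.dd _).tw _) (hF.dd _)]
  congr 2
  funext M
  rw [tw_apply, tw_apply, lead_neg_one_pow_mul]
  rfl

lemma lead_quad (K : ℕ) (L : List X.V) :
    lead (-1) (quad (fun x y => hbi * CK X Nov K x y) L)
      = quad (CK X (PowerSeries ℂ) K) L := by
  match L with
  | [] => rw [quad_nil, quad_nil, lead_zero]
  | [x] => rw [quad_one, quad_one, lead_zero]
  | x :: y :: z :: L => rw [quad_more, quad_more, lead_zero]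
  | [x, y] =>
    rw [quad_two, quad_two, lead_hbi_mul, CK, CK]
    split_ifs
    · ext d
      rw [coeff_lead, cf_map, PowerSeries.algebraMap_apply, PowerSeries.coeff_C]
      by_cases hd : d = 0
      · rw [if_pos ⟨hd, by norm_num⟩, if_pos hd]
        rfl
      · rw [if_neg (by tauto), if_neg hd]
    · exact lead_zero _

lemma lead_cst (K : ℕ) (L : List X.V) : lead (-1) (cst (cK X Nov K) L) = 0 := by
  match L with
  | x :: L => rw [cst_cons, lead_zero]
  | [] =>
    rw [cst_nil, cK]
    split_ifs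
    · ext d
      rw [coeff_lead, cf_map, if_neg (by omega), map_zero]
    · exact lead_zero _

/-- the genus zero Virasoro expression -/
noncomputable def z0 (X : Target) (K : ℕ) (F : List X.V → PowerSeries ℂ) :
    List X.V → PowerSeries ℂ :=
  -dv (AK X (PowerSeries ℂ) K (1, X.one)) F + vf (AK X (PowerSeries ℂ) K) F
    + spl X.par (BK X (PowerSeries ℂ) K) F F + quad (CK X (PowerSeries ℂ) K)

/-- The coefficient of `ħ⁻¹` of `z_k` is the genus zero expression. -/
lemma lead_zN (K : ℕ) {F : List X.V → Nov} (hF : Ord X (-1) F) (L : List X.V) :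
    lead (-1) (zN X K F L) = z0 X K (fun M => lead (-1) (F M)) L := by
  unfold zN zz z0
  rw [Pi.add_apply, Pi.add_apply, Pi.add_apply, Pi.add_apply, Pi.add_apply, Pi.neg_apply,
    Pi.add_apply, Pi.add_apply, Pi.add_apply, Pi.neg_apply,
    lead_add, lead_add, lead_add, lead_add, lead_add, lead_neg, lead_dv_AK, lead_vf_AK,
    lead_spl hF, lead_quad, lead_cst, one_smul, lead_sec hF, add_zero, add_zero]

end Vale.Agent.P269.H207
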