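import Vale.Agent.P269.H207.Lead
import Vale.Agent.P269.H707.L0Nov

/-! Assembly of the Virasoro constraints. -/

set_option autoImplicit false

namespace Vale.Agent.P269.H207

open Finset

section

variable {α R : Type*} [CommRing R] {par : α → ℕ}

lemma spl_smul_mid (β : α × α →₀ R) (c : R) (f g : List α → R) :
    spl par β (c • f) g = c • spl par β f g := by
  classical
  induction β using Finsupp.induction_linear with
  | zero => simp
  | add v w hv hw => simp only [spl_add_left, hv, hw, smul_add]
  | single p d => simp only [spl_single, dd_smul, tw_smul, smul2_smul_left, smul_comm c d]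

lemma spl_smul_right (β : α × α →₀ R) (c : R) (f g : List α → R) :
    spl par β f (c • g) = c • spl par β f g := by
  classical
  induction β using Finsupp.induction_linear with
  | zero => simp
  | add v w hv hw => simp only [spl_add_left, hv, hw, smul_add]
  | single p d => simp only [spl_single, dd_smul, smul2_smul_right, smul_comm c d]

lemma zz_scale {h hi : R} (hh : h * hi = 1) (e : α) (A : α → α →₀ R) (β : α × α →₀ R)
    (C : α → α → R) (c : R) (F : List α → R) :
    h • zz par 1 e A (h • β) (fun x y => hi * C x y) c F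
      = zz par h e A β C (h * c) (h • F) := by
  unfold zz
  have e1 : (quad fun x y => hi * C x y) = hi • quad C := quad_smul _ _
  have e2 : h • (cst c : List α → R) = cst (h * c) := by
    funext L
    cases L <;> simp
  rw [e1, smul_add, smul_add, smul_add, smul_add, smul_add, smul_neg, ← dv_smul, ← vf_smul,
    one_smul, sec_smul_left, spl_smul_left, e2, smul_smul h hi, hh, one_smul, sec_smul,
    spl_smul_mid, spl_smul_right]

end

variable {X : Target} {GW : ℕ → ℕ → List X.V → ℂ}

/-- `z_0 = 0` -/
lemma zN_one (h : IsGW X GW) : zN X 1 (potential X GW) = 0 := by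
  have h1 := H707.L0_Nov X h
  rw [← zz_scale hb_mul_hbi] at h1
  have h2 : hbi • (hb • zN X 1 (potential X GW)) = hbi • (0 : List X.V → Nov) := by
    rw [← h1]
    rfl
  rw [smul_smul, mul_comm, hb_mul_hbi, one_smul] at h2
  rw [h2]
  funext L
  simp

/-- All Virasoro constraints hold in genus `g ≥ 1` and degree `d` of nonpositive virtual
dimension. -/
theorem vir_coeff (h : IsGW X GW) (K g d : ℕ)
    (hs : (1 - (g : ℤ)) * (X.D - 3) + X.c1 * d ≤ 0) (L : List X.V) :
    cf d ((g : ℤ) - 1) (zN X K (potential X GW) L) = 0 := by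
  refine zN_cf_vanish h (zN_one h) d _ ?_ K L
  have : X.c1 * d - ((g : ℤ) - 1) * (X.D - 3) = (1 - (g : ℤ)) * (X.D - 3) + X.c1 * d := by ring
  rw [this]
  exact hs

/-- the genus zero potential -/
noncomputable def pot0 (GW : ℕ → ℕ → List X.V → ℂ) : List X.V → PowerSeries ℂ :=
  fun M => PowerSeries.mk fun d => GW 0 d M

lemma lead_potential : (fun M => lead (-1) (potential X GW M)) = pot0 GW := by
  funext M
  ext d
  rw [coeff_lead, cf_potential, pot0, PowerSeries.coeff_mk]
  simp

/-- the genus zero constraints give the coefficient of `ħ⁻¹` -/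
theorem vir_coeff_zero (h : IsGW X GW) (K : ℕ) (h0 : z0 X K (pot0 GW) = 0) (d : ℕ)
    (L : List X.V) : cf d (-1) (zN X K (potential X GW) L) = 0 := by
  have h1 : Ord X (-1) (potential X GW) := fun L d e he => (potential_supp h L d e he).2
  have h2 := lead_zN K h1 L
  rw [lead_potential, h0] at h2
  rw [← coeff_lead, h2]
  simp

/-- The Virasoro constraints for targets with nef canonical class, of dimension at least 3. -/
theorem vir_nef (h : IsGW X GW) (hD : 3 ≤ X.D) (hc : X.c1 ≤ 0) (K : ℕ)
    (h0 : z0 X K (pot0 GW) = 0) : zN X K (potential X GW) = 0 := by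
  funext L
  apply Nov_ext
  intro d e
  rw [Pi.zero_apply, cf_zero]
  by_cases he : 0 ≤ e
  · refine zN_cf_vanish h (zN_one h) d e ?_ K L
    have h1 : X.c1 * d ≤ 0 := mul_nonpos_of_nonpos_of_nonneg hc (by positivity)
    have h2 : 0 ≤ e * ((X.D : ℤ) - 3) := mul_nonneg he (by omega)
    omega
  · by_cases he1 : e = -1
    · rw [he1]
      exact vir_coeff_zero h K h0 d L
    · by_contra hne
      have := (zN_supp K (potential_supp h) L d e hne).2
      omega

theorem Vir_nef (h : IsGW X GW) (hD : 3 ≤ X.D) (hc : X.c1 ≤ 0) (K : ℕ)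
    (h0 : z0 X K (pot0 GW) = 0) {Z : List X.V → Nov} (hZ : IsExp X (potential X GW) Z) :
    Vir X K Z = 0 := by
  rw [Vir_eq K (potential_par h) hZ, vir_nef h hD hc K h0, smul2_zero_left]

end Vale.Agent.P269.H207
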