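import Vale.Agent.P269.H207.Vec

/-! Quadratic operators, graded symmetry and contraction. -/

set_option autoImplicit false

namespace Vale.Agent.P269.H207

variable {α R : Type*} [CommRing R] {par : α → ℕ}

/-! ### `quad`, `lin`, `cst` -/

@[simp] lemma quad_nil (C : α → α → R) : quad C [] = 0 := rfl
@[simp] lemma quad_one (C : α → α → R) (x : α) : quad C [x] = 0 := rfl
@[simp] lemma quad_two (C : α → α → R) (x y : α) : quad C [x, y] = C x y := rfl
@[simp] lemma quad_more (C : α → α → R) (x y z : α) (L : List α) :
    quad C (x :: y :: z :: L) = 0 := rfl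
@[simp] lemma lin_nil (c : α → R) : lin c [] = 0 := rfl
@[simp] lemma lin_one (c : α → R) (x : α) : lin c [x] = c x := rfl
@[simp] lemma lin_more (c : α → R) (x y : α) (L : List α) : lin c (x :: y :: L) = 0 := rfl
@[simp] lemma cst_nil (c : R) : cst c ([] : List α) = c := rfl
@[simp] lemma cst_cons (c : R) (x : α) (L : List α) : cst c (x :: L) = 0 := rfl

lemma dd_quad (C : α → α → R) (x : α) : dd x (quad C) = lin (C x) := by
  funext L
  match L with
  | [] => rfl
  | [y] => rfl
  | y :: z :: L => rfl

lemma dd_lin (c : α → R) (x : α) : dd x (lin c) = cst (c x) := by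
  funext L
  match L with
  | [] => rfl
  | y :: L => rfl

@[simp] lemma dd_cst (c : R) (x : α) : dd x (cst c : List α → R) = 0 := by
  funext L; rfl

lemma tw_cst (n : ℕ) (c : R) : tw par n (cst c : List α → R) = cst c := by
  funext L
  cases L with
  | nil => simp
  | cons x L => simp

lemma smul2_cst_left (c : R) (f : List α → R) : smul2 par (cst c) f = c • f := by
  funext L
  induction L generalizing f with
  | nil => simp
  | cons x L ih =>
    rw [smul2_cons, dd_cst, smul2_zero_left, tw_cst, ih]
    simp

lemma smul2_cst_right (c : R) (f : List α → R) : smul2 par f (cst c) = c • f := by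
  funext L
  induction L generalizing f with
  | nil => simp [mul_comm]
  | cons x L ih =>
    rw [smul2_cons, dd_cst, smul2_zero_right, ih]
    simp

lemma vf_cst (A : α → α →₀ R) (c : R) : vf A (cst c : List α → R) = 0 := by
  funext L
  induction L with
  | nil => rfl
  | cons x L ih =>
    rw [vf_cons, dd_cst, vf_zero]
    simp [dv_apply]

lemma vf_lin (A : α → α →₀ R) (c : α → R) :
    vf A (lin c) = lin fun x => (A x).sum fun w a => a * c w := by
  funext L
  match L with
  | [] => rfl
  | [y] => simp [vf_cons, dv_apply]
  | y :: z :: L =>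
    rw [vf_cons, dd_lin, vf_cst]
    simp [dv_apply]

lemma vf_quad (A : α → α →₀ R) (C : α → α → R) :
    vf A (quad C) = quad fun x y =>
      ((A x).sum fun w a => a * C w y) + ((A y).sum fun w a => a * C x w) := by
  funext L
  match L with
  | [] => rfl
  | [y] => simp [vf_cons, dv_apply]
  | [x, y] =>
    rw [vf_cons, dd_quad, vf_lin]
    simp [dv_apply]
  | x :: y :: z :: L =>
    rw [vf_cons, dd_quad, vf_lin]
    simp [dv_apply]

lemma quad_add (C C' : α → α → R) : quad (fun x y => C x y + C' x y) = quad C + quad C' := by
  funext L
  match L with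
  | [] => simp
  | [y] => simp
  | [x, y] => simp
  | x :: y :: z :: L => simp

lemma quad_smul (c : R) (C : α → α → R) : quad (fun x y => c * C x y) = c • quad C := by
  funext L
  match L with
  | [] => simp
  | [y] => simp
  | [x, y] => simp
  | x :: y :: z :: L => simp

/-! ### graded symmetry -/

lemma SSym.dd {f : List α → R} (hf : SSym par f) (x : α) : SSym par (dd x f) := by
  intro K y z L
  exact hf (x :: K) y z L

lemma SSym.swap {f : List α → R} (hf : SSym par f) (x y : α) :
    H207.dd x (H207.dd y f) = ((-1 : R) ^ (par x * par y)) • H207.dd y (H207.dd x f) := by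
  funext L
  have := hf [] y x L
  simp only [List.nil_append] at this
  simp only [dd_apply, Pi.smul_apply, smul_eq_mul, this, mul_comm (par x)]

lemma SSym.swap_even {f : List α → R} (hf : SSym par f) {o : α} (ho : par o % 2 = 0) (x : α) :
    H207.dd o (H207.dd x f) = H207.dd x (H207.dd o f) := by
  rw [hf.swap o x, neg_one_pow_mod (par o * par x) 0 (by simp [Nat.mul_mod, ho])]
  simp

lemma SSym.add {f g : List α → R} (hf : SSym par f) (hg : SSym par g) : SSym par (f + g) := by
  intro K x y L
  simp only [Pi.add_apply, hf K x y L, hg K x y L]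
  ring

lemma SSym.smul {f : List α → R} (c : R) (hf : SSym par f) : SSym par (c • f) := by
  intro K x y L
  simp only [Pi.smul_apply, smul_eq_mul, hf K x y L]
  ring

lemma SSym.cons_perm {f : List α → R} (hf : SSym par f) {o : α} (ho : par o % 2 = 0)
    (K L : List α) : f (K ++ o :: L) = f (o :: (K ++ L)) := by
  induction K generalizing f with
  | nil => rfl
  | cons x K ih =>
    have h1 : f ((x :: K) ++ o :: L) = (H207.dd x f) (K ++ o :: L) := rfl
    rw [h1, ih (hf.dd x)]
    have h2 := congrFun (hf.swap_even ho x) (K ++ L)
    simpa using h2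

/-! ### second order operators -/

lemma sec_apply (β : α × α →₀ R) (f : List α → R) (L : List α) :
    sec β f L = β.sum fun p c => c * f (p.1 :: p.2 :: L) := rfl

lemma sec_add_left (β γ : α × α →₀ R) (f : List α → R) :
    sec (β + γ) f = sec β f + sec γ f := by
  classical
  funext L
  simp only [sec_apply, Pi.add_apply]
  exact Finsupp.sum_add_index' (fun _ => by simp) (fun _ _ _ => by ring)

lemma sec_smul_left (c : R) (β : α × α →₀ R) (f : List α → R) :
    sec (c • β) f = c • sec β f := by
  classical
  funext L
  simp only [sec_apply, Pi.smul_apply, smul_eq_mul]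
  rw [Finsupp.sum_smul_index' (fun _ => by simp), Finsupp.mul_sum]
  exact Finsupp.sum_congr fun x _ => by simp only [smul_eq_mul]; ring

@[simp] lemma sec_zero_left (f : List α → R) : sec (0 : α × α →₀ R) f = 0 := by
  funext L; simp [sec_apply]

@[simp] lemma sec_single (p : α × α) (c : R) (f : List α → R) :
    sec (Finsupp.single p c) f = c • dd p.2 (dd p.1 f) := by
  funext L
  simp [sec_apply]

lemma sec_add (β : α × α →₀ R) (f g : List α → R) : sec β (f + g) = sec β f + sec β g := by
  funext L
  simp only [sec_apply, Pi.add_apply, Finsupp.sum, mul_add, Finset.sum_add_distrib]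

lemma sec_smul (β : α × α →₀ R) (c : R) (f : List α → R) : sec β (c • f) = c • sec β f := by
  funext L
  simp only [sec_apply, Pi.smul_apply, smul_eq_mul, Finsupp.sum, Finset.mul_sum]
  exact Finset.sum_congr rfl fun x _ => by ring

lemma spl_apply (β : α × α →₀ R) (f g : List α → R) (L : List α) :
    spl par β f g L
      = β.sum fun p c => c * smul2 par (tw par (par p.2) (dd p.1 f)) (dd p.2 g) L := rfl

lemma spl_add_left (β γ : α × α →₀ R) (f g : List α → R) :
    spl par (β + γ) f g = spl par β f g + spl par γ f g := by
  classical
  funext L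
  simp only [spl_apply, Pi.add_apply]
  exact Finsupp.sum_add_index' (fun _ => by simp) (fun _ _ _ => by ring)

lemma spl_smul_left (c : R) (β : α × α →₀ R) (f g : List α → R) :
    spl par (c • β) f g = c • spl par β f g := by
  classical
  funext L
  simp only [spl_apply, Pi.smul_apply, smul_eq_mul]
  rw [Finsupp.sum_smul_index' (fun _ => by simp), Finsupp.mul_sum]
  exact Finsupp.sum_congr fun x _ => by simp only [smul_eq_mul]; ring

@[simp] lemma spl_zero_left (f g : List α → R) : spl par (0 : α × α →₀ R) f g = 0 := by
  funext L; simp [spl_apply]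

@[simp] lemma spl_single (p : α × α) (c : R) (f g : List α → R) :
    spl par (Finsupp.single p c) f g
      = c • smul2 par (tw par (par p.2) (dd p.1 f)) (dd p.2 g) := by
  funext L
  simp [spl_apply]

lemma spl_add_mid (β : α × α →₀ R) (f f' g : List α → R) :
    spl par β (f + f') g = spl par β f g + spl par β f' g := by
  classical
  induction β using Finsupp.induction_linear with
  | zero => simp
  | add v w hv hw => simp only [spl_add_left, hv, hw]; abel
  | single p c => simp only [spl_single, dd_add, tw_add, smul2_add_left, smul_add]

lemma spl_add_right (β : α × α →₀ R) (f g g' : List α → R) :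
    spl par β f (g + g') = spl par β f g + spl par β f g' := by
  classical
  induction β using Finsupp.induction_linear with
  | zero => simp
  | add v w hv hw => simp only [spl_add_left, hv, hw]; abel
  | single p c => simp only [spl_single, dd_add, smul2_add_right, smul_add]

/-- `(A ⊗ 1) β` -/
noncomputable def lact (A : α → α →₀ R) (β : α × α →₀ R) : α × α →₀ R :=
  β.sum fun p c => (A p.1).sum fun w a => Finsupp.single (w, p.2) (c * a)

/-- `(1 ⊗ A) β` -/
noncomputable def ract (A : α → α →₀ R) (β : α × α →₀ R) : α × α →₀ R :=
  β.sum fun p c => (A p.2).sum fun w a => Finsupp.single (p.1, w) (c * a)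

@[simp] lemma lact_zero (A : α → α →₀ R) : lact A 0 = 0 := by simp [lact]
@[simp] lemma ract_zero (A : α → α →₀ R) : ract A 0 = 0 := by simp [ract]

lemma lact_add (A : α → α →₀ R) (β γ : α × α →₀ R) : lact A (β + γ) = lact A β + lact A γ := by
  classical
  unfold lact
  refine Finsupp.sum_add_index' (fun _ => by simp) (fun p b c => ?_)
  simp only [add_mul, Finsupp.single_add, Finsupp.sum, Finset.sum_add_distrib]

lemma ract_add (A : α → α →₀ R) (β γ : α × α →₀ R) : ract A (β + γ) = ract A β + ract A γ := by
  classical
  unfold ract
  refine Finsupp.sum_add_index' (fun _ => by simp) (fun p b c => ?_)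
  simp only [add_mul, Finsupp.single_add, Finsupp.sum, Finset.sum_add_distrib]

@[simp] lemma lact_single (A : α → α →₀ R) (p : α × α) (c : R) :
    lact A (Finsupp.single p c)
      = (A p.1).sum fun w a => Finsupp.single (w, p.2) (c * a) := by
  unfold lact
  rw [Finsupp.sum_single_index]
  simp [Finsupp.sum]

@[simp] lemma ract_single (A : α → α →₀ R) (p : α × α) (c : R) :
    ract A (Finsupp.single p c)
      = (A p.2).sum fun w a => Finsupp.single (p.1, w) (c * a) := by
  unfold ract
  rw [Finsupp.sum_single_index]
  simp [Finsupp.sum]

lemma sec_finsetSum {ι : Type*} (s : Finset ι) (β : ι → α × α →₀ R) (f : List α → R) :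
    sec (∑ i ∈ s, β i) f = ∑ i ∈ s, sec (β i) f := by
  classical
  induction s using Finset.induction_on with
  | empty => simp
  | insert a s ha ih => rw [Finset.sum_insert ha, Finset.sum_insert ha, sec_add_left, ih]

lemma spl_finsetSum {ι : Type*} (s : Finset ι) (β : ι → α × α →₀ R) (f g : List α → R) :
    spl par (∑ i ∈ s, β i) f g = ∑ i ∈ s, spl par (β i) f g := by
  classical
  induction s using Finset.induction_on with
  | empty => simp
  | insert a s ha ih => rw [Finset.sum_insert ha, Finset.sum_insert ha, spl_add_left, ih]

lemma sec_vf (A : α → α →₀ R) (β : α × α →₀ R) (f : List α → R) :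
    sec β (vf A f) = sec (lact A β + ract A β) f + vf A (sec β f) := by
  classical
  induction β using Finsupp.induction_linear with
  | zero => simp
  | add v w hv hw =>
    rw [sec_add_left, hv, hw, lact_add, ract_add, sec_add_left v w f, vf_add]
    simp only [sec_add_left]
    abel
  | single p c =>
    rw [sec_single, sec_single, dd_vf, dd_add, dd_vf, sec_add_left, lact_single, ract_single,
      vf_smul]
    unfold Finsupp.sum
    rw [sec_finsetSum, sec_finsetSum]
    simp only [sec_single]
    rw [dv_eq_sum, dv_eq_sum]
    unfold Finsupp.sum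
    funext L
    simp only [Pi.add_apply, Pi.smul_apply, smul_eq_mul, dd_apply, Finset.sum_apply,
      Finset.mul_sum, mul_add, mul_assoc]
    ring

lemma smul2_sum_left {ι : Type*} (s : Finset ι) (f : ι → List α → R) (g : List α → R) :
    smul2 par (∑ i ∈ s, f i) g = ∑ i ∈ s, smul2 par (f i) g := by
  classical
  induction s using Finset.induction_on with
  | empty => simp
  | insert a s ha ih => rw [Finset.sum_insert ha, Finset.sum_insert ha, smul2_add_left, ih]

lemma smul2_sum_right {ι : Type*} (s : Finset ι) (f : List α → R) (g : ι → List α → R) :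
    smul2 par f (∑ i ∈ s, g i) = ∑ i ∈ s, smul2 par f (g i) := by
  classical
  induction s using Finset.induction_on with
  | empty => simp
  | insert a s ha ih => rw [Finset.sum_insert ha, Finset.sum_insert ha, smul2_add_right, ih]

lemma tw_sum {ι : Type*} (s : Finset ι) (n : ℕ) (f : ι → List α → R) :
    tw par n (∑ i ∈ s, f i) = ∑ i ∈ s, tw par n (f i) := by
  classical
  induction s using Finset.induction_on with
  | empty => simp
  | insert a s ha ih => rw [Finset.sum_insert ha, Finset.sum_insert ha, tw_add, ih]

lemma spl_vf {A : α → α →₀ R} (hA : EvenOp par A) (β : α × α →₀ R) (f g : List α → R) :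
    spl par β (vf A f) g + spl par β f (vf A g)
      = spl par (lact A β + ract A β) f g + vf A (spl par β f g) := by
  classical
  induction β using Finsupp.induction_linear with
  | zero => simp
  | add v w hv hw =>
    have e : spl par (v + w) (vf A f) g + spl par (v + w) f (vf A g)
        = (spl par v (vf A f) g + spl par v f (vf A g))
          + (spl par w (vf A f) g + spl par w f (vf A g)) := by
      rw [spl_add_left, spl_add_left]; abel
    rw [e, hv, hw, lact_add, ract_add, spl_add_left v w f g, vf_add]
    simp only [spl_add_left]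
    abel
  | single p c =>
    rw [spl_single, spl_single, dd_vf, dd_vf, spl_add_left, lact_single, ract_single,
      spl_single, vf_smul, vf_smul2 hA, tw_add, smul2_add_left, smul2_add_right,
      tw_vf hA]
    unfold Finsupp.sum
    rw [spl_finsetSum, spl_finsetSum]
    simp only [spl_single]
    rw [dv_eq_sum, dv_eq_sum]
    unfold Finsupp.sum
    rw [tw_sum, smul2_sum_left, smul2_sum_right]
    have e1 : ∀ w ∈ (A p.2).support,
        smul2 par (tw par (par w) (dd p.1 f)) (dd w g)
          = smul2 par (tw par (par p.2) (dd p.1 f)) (dd w g) := by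
      intro w hw
      rw [tw_congr (hA p.2 w hw)]
    have e2 : ∑ w ∈ (A p.2).support, (c * (A p.2) w) •
          smul2 par (tw par (par (p.1, w).2) (dd (p.1, w).1 f)) (dd (p.1, w).2 g)
        = ∑ w ∈ (A p.2).support, (c * (A p.2) w) •
          smul2 par (tw par (par p.2) (dd p.1 f)) (dd w g) :=
      Finset.sum_congr rfl fun w hw => by rw [← e1 w hw]
    rw [e2]
    simp only [tw_smul, smul2_smul_left, smul2_smul_right, smul_add, Finset.smul_sum, smul_smul]
    abel

lemma dd_sec {f : List α → R} (hf : SSym par f) {o : α} (ho : par o % 2 = 0)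
    (β : α × α →₀ R) : dd o (sec β f) = sec β (dd o f) := by
  classical
  funext L
  simp only [dd_apply, sec_apply]
  refine Finsupp.sum_congr fun p _ => ?_
  have := hf.cons_perm ho [p.1, p.2] L
  simp only [List.cons_append, List.nil_append] at this
  rw [this]

lemma dd_spl {f g : List α → R} (hf : SSym par f) (hg : SSym par g) {o : α}
    (ho : par o % 2 = 0) (β : α × α →₀ R) :
    dd o (spl par β f g) = spl par β (dd o f) g + spl par β f (dd o g) := by
  classical
  induction β using Finsupp.induction_linear with
  | zero => simp
  | add v w hv hw =>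
    rw [spl_add_left, dd_add, hv, hw]
    simp only [spl_add_left]
    abel
  | single p c =>
    rw [spl_single, spl_single, spl_single, dd_smul, dd_smul2, dd_tw,
      hf.swap_even ho, hg.swap_even ho, tw_even ho,
      neg_one_pow_mod (par p.2 * par o) 0 (by simp [Nat.mul_mod, ho])]
    simp

end Vale.Agent.P269.H207
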