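import Vale.Agent.P269.H332.Genus0

/-! Reduction of the constraints of one sector to a single one, and cancellation of `Z`. -/

set_option autoImplicit false

namespace Vale.Agent.P269.H207

open Finset

section Cancel

variable {α R : Type*} [CommRing R] {par : α → ℕ}

lemma smul2_left_zero_of (L : List α) (f g : List α → R)
    (h : ∀ M : List α, M.length ≤ L.length → f M = 0) : smul2 par f g L = 0 := by
  induction L generalizing f g with
  | nil => rw [smul2_nil, h [] (le_refl _), zero_mul]
  | cons x L ih =>
    rw [smul2_cons, ih, ih, add_zero]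
    · intro M hM
      rw [tw_apply, h M (by simp; omega), mul_zero]
    · intro M hM
      exact h (x :: M) (by simpa using hM)

lemma smul2_top (L : List α) (f g : List α → R)
    (h : ∀ M : List α, M.length < L.length → f M = 0) : smul2 par f g L = f L * g [] := by
  induction L generalizing f g with
  | nil => rw [smul2_nil]
  | cons x L ih =>
    rw [smul2_cons, ih, smul2_left_zero_of, add_zero, dd_apply]
    · intro M hM
      rw [tw_apply, h M (by simp; omega), mul_zero]
    · intro M hM
      exact h (x :: M) (by simpa using hM)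

/-- a series with invertible constant term can be cancelled -/
lemma smul2_cancel {f f' Z : List α → R} (hZ : IsUnit (Z []))
    (h : smul2 par f Z = smul2 par f' Z) : f = f' := by
  have h1 : smul2 par (f - f') Z = 0 := by
    rw [sub_eq_add_neg, smul2_add_left, smul2_neg_left, h, add_neg_cancel]
  have key : ∀ n : ℕ, ∀ L : List α, L.length ≤ n → (f - f') L = 0 := by
    intro n
    induction n with
    | zero =>
      intro L hL
      have hL' : L = [] := List.length_eq_zero_iff.mp (by omega)
      subst hL'
      have := congrFun h1 []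
      rw [smul2_nil] at this
      exact (hZ.mul_left_eq_zero).mp this
    | succ n ih =>
      intro L hL
      have := congrFun h1 L
      rw [smul2_top L _ _ (fun M hM => ih M (by omega))] at this
      exact (hZ.mul_left_eq_zero).mp this
  funext L
  have := key _ L (le_refl _)
  rw [Pi.sub_apply, sub_eq_zero] at this
  exact this

end Cancel

variable {X : Target} {GW : ℕ → ℕ → List X.V → ℂ}

lemma cf_descent (h : IsGW X GW) (d : ℕ) (e : ℤ) (K : ℕ) (M : List X.V) :
    cf d e (zN X (K + 1) (potential X GW) ((0, X.one) :: M))
      = low X M (fun L => cf d e (zN X (K + 1) (potential X GW) L))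
        + ((K : ℂ) + 1) * cf d e (zN X K (potential X GW) M) := by
  have hd := congrFun (zN_descent X K (potential_ssym h) (potential_par h)
    (potential_string h)) M
  rw [dd_apply] at hd
  rw [hd, Pi.add_apply, cf_add, cf_vf_AK, vf_low]
  congr 1
  have e1 : ((K : Nov) + 1) = algebraMap ℂ Nov ((K : ℂ) + 1) := by simp
  rw [e1, Pi.smul_apply, smul_eq_mul, cf_map_mul]

lemma vir_down (h : IsGW X GW) (d : ℕ) (e : ℤ) (K : ℕ)
    (hK : ∀ L, cf d e (zN X (K + 1) (potential X GW) L) = 0) (L : List X.V) :
    cf d e (zN X K (potential X GW) L) = 0 := by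
  have h1 := cf_descent h d e K L
  have h2 : (fun L => cf d e (zN X (K + 1) (potential X GW) L)) = 0 := by
    funext M
    exact hK M
  rw [hK, h2, ← vf_low, vf_zero, Pi.zero_apply, zero_add] at h1
  have h3 : ((K : ℂ) + 1) ≠ 0 := Nat.cast_add_one_ne_zero K
  exact (mul_eq_zero.mp h1.symm).resolve_left h3

lemma vir_up (h : IsGW X GW) (d : ℕ) (e : ℤ) (K : ℕ)
    (hs : X.c1 * d - e * (X.D - 3) < K)
    (hK : ∀ L, cf d e (zN X K (potential X GW) L) = 0) (L : List X.V) :
    cf d e (zN X (K + 1) (potential X GW) L) = 0 := by
  have key : (fun L => cf d e (zN X (K + 1) (potential X GW) L)) = 0 := by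
    refine vanish _ ?_ (2 * (X.c1 * d - e * (X.D - 3)) - 2 * K) (by omega) ?_ ?_
    · intro M x y N
      have := zN_ssym X (K + 1) (potential_ssym h) M x y N
      simp only [this, cf_neg_one_pow_mul]
    · intro M hM
      have := (zN_supp (K + 1) (potential_supp h) M d e hM).1
      push_cast at this
      linear_combination this
    · intro M
      rw [cf_descent h d e K M, hK M, mul_zero, add_zero]
  exact congrFun key L

/-- In genus `g` and degree `d` all Virasoro constraints follow from the constraint `L_k` for one
`k ≥ (1 - g)(D - 3) + c_1 d`. -/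
theorem vir_sector (h : IsGW X GW) (g d K₀ : ℕ)
    (hs : (1 - (g : ℤ)) * (X.D - 3) + X.c1 * d + 1 ≤ K₀)
    (hK : ∀ L, cf d ((g : ℤ) - 1) (zN X K₀ (potential X GW) L) = 0) (K : ℕ) (L : List X.V) :
    cf d ((g : ℤ) - 1) (zN X K (potential X GW) L) = 0 := by
  have hs' : X.c1 * d - ((g : ℤ) - 1) * (X.D - 3) + 1 ≤ K₀ := by
    have : X.c1 * d - ((g : ℤ) - 1) * (X.D - 3) = (1 - (g : ℤ)) * (X.D - 3) + X.c1 * d := by ring
    rw [this]
    exact hs
  have up : ∀ n : ℕ, ∀ L, cf d ((g : ℤ) - 1) (zN X (K₀ + n) (potential X GW) L) = 0 := by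
    intro n
    induction n with
    | zero => exact hK
    | succ n ih =>
      intro L
      rw [← add_assoc]
      exact vir_up h d _ (K₀ + n) (by push_cast; omega) ih L
  have down : ∀ n : ℕ, ∀ K, K + n = K₀ → ∀ L,
      cf d ((g : ℤ) - 1) (zN X K (potential X GW) L) = 0 := by
    intro n
    induction n with
    | zero =>
      intro K hKe
      rw [add_zero] at hKe
      rw [hKe]
      exact hK
    | succ n ih =>
      intro K hKe L
      exact vir_down h d _ K (ih (K + 1) (by omega)) L
  rcases le_total K K₀ with h1 | h1
  · exact down (K₀ - K) K (by omega) L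
  · have := up (K - K₀) L
    rwa [Nat.add_sub_cancel' h1] at this

end Vale.Agent.P269.H207
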