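import Vale.Agent.P269.H207.SuperDefs

/-!
Formal super power series in variables indexed by a type `α` with parity `par : α → ℕ`,
represented by their Taylor coefficients: a series is a function `f : List α → R`, where
`f [x₁, …, xₙ]` is `∂_{xₙ} ⋯ ∂_{x₁} f` at `0` (left derivatives).
-/

set_option autoImplicit false

namespace Vale.Agent.P269.H207

section Basic

variable {α R : Type*} [CommRing R] {par : α → ℕ}

@[simp] lemma parL_nil : parL par [] = 0 := rfl
@[simp] lemma parL_cons (x : α) (L : List α) : parL par (x :: L) = par x + parL par L := rfl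

lemma parL_append (K L : List α) : parL par (K ++ L) = parL par K + parL par L := by
  induction K with
  | nil => simp
  | cons x K ih => simp [ih, add_assoc]

omit [CommRing R] in
@[simp] lemma dd_apply (x : α) (f : List α → R) (L : List α) : dd x f L = f (x :: L) := rfl

@[simp] lemma tw_apply (n : ℕ) (f : List α → R) (L : List α) :
    tw par n f L = (-1) ^ (n * parL par L) * f L := rfl

@[simp] lemma smul2_nil (f g : List α → R) : smul2 par f g [] = f [] * g [] := rfl

lemma smul2_cons (f g : List α → R) (x : α) (L : List α) :
    smul2 par f g (x :: L)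
      = smul2 par (dd x f) g L + smul2 par (tw par (par x) f) (dd x g) L := rfl

lemma dd_smul2 (x : α) (f g : List α → R) :
    dd x (smul2 par f g) = smul2 par (dd x f) g + smul2 par (tw par (par x) f) (dd x g) := by
  funext L
  simp [smul2_cons]

lemma dd_add (x : α) (f g : List α → R) : dd x (f + g) = dd x f + dd x g := rfl
lemma dd_sub (x : α) (f g : List α → R) : dd x (f - g) = dd x f - dd x g := rfl
lemma dd_neg (x : α) (f : List α → R) : dd x (-f) = -dd x f := rfl
lemma dd_smul (x : α) (c : R) (f : List α → R) : dd x (c • f) = c • dd x f := rfl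
@[simp] lemma dd_zero (x : α) : dd x (0 : List α → R) = 0 := rfl

lemma tw_add (n : ℕ) (f g : List α → R) : tw par n (f + g) = tw par n f + tw par n g := by
  funext L; simp [mul_add]
lemma tw_smul (n : ℕ) (c : R) (f : List α → R) : tw par n (c • f) = c • tw par n f := by
  funext L; simp; ring
lemma tw_neg (n : ℕ) (f : List α → R) : tw par n (-f) = -tw par n f := by
  funext L; simp
@[simp] lemma tw_zero (n : ℕ) : tw par n (0 : List α → R) = 0 := by
  funext L; simp

lemma neg_one_pow_mod (a b : ℕ) (h : a % 2 = b % 2) : ((-1 : R)) ^ a = (-1) ^ b := by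
  rw [neg_one_pow_eq_pow_mod_two (n := a), neg_one_pow_eq_pow_mod_two (n := b), h]

lemma tw_congr {m n : ℕ} (h : m % 2 = n % 2) (f : List α → R) : tw par m f = tw par n f := by
  funext L
  simp only [tw_apply]
  congr 1
  apply neg_one_pow_mod
  simp [Nat.mul_mod, h]

lemma tw_tw (m n : ℕ) (f : List α → R) : tw par m (tw par n f) = tw par (m + n) f := by
  funext L
  simp only [tw_apply, add_mul, pow_add]
  ring

lemma tw_even {m : ℕ} (h : m % 2 = 0) (f : List α → R) : tw par m f = f := by
  rw [tw_congr (n := 0) (by simpa using h)]
  funext L; simp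

lemma dd_tw (x : α) (n : ℕ) (f : List α → R) :
    dd x (tw par n f) = ((-1 : R) ^ (n * par x)) • tw par n (dd x f) := by
  funext L
  simp [mul_add, pow_add, mul_assoc]

lemma smul2_add_left (f g h : List α → R) :
    smul2 par (f + g) h = smul2 par f h + smul2 par g h := by
  funext L
  induction L generalizing f g h with
  | nil => simp [add_mul]
  | cons x L ih =>
    simp only [smul2_cons, Pi.add_apply, dd_add, tw_add, ih]
    ring

lemma smul2_add_right (f g h : List α → R) :
    smul2 par f (g + h) = smul2 par f g + smul2 par f h := by
  funext L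
  induction L generalizing f g h with
  | nil => simp [mul_add]
  | cons x L ih =>
    simp only [smul2_cons, Pi.add_apply, dd_add, ih]
    ring

lemma smul2_smul_left (c : R) (f g : List α → R) :
    smul2 par (c • f) g = c • smul2 par f g := by
  funext L
  induction L generalizing f g with
  | nil => simp [mul_assoc]
  | cons x L ih =>
    simp only [smul2_cons, Pi.smul_apply, dd_smul, tw_smul, ih, smul_eq_mul]
    ring

lemma smul2_smul_right (c : R) (f g : List α → R) :
    smul2 par f (c • g) = c • smul2 par f g := by
  funext L
  induction L generalizing f g with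
  | nil => simp; ring
  | cons x L ih =>
    simp only [smul2_cons, Pi.smul_apply, dd_smul, ih, smul_eq_mul]
    ring

@[simp] lemma smul2_zero_left (g : List α → R) : smul2 par 0 g = 0 := by
  have := smul2_smul_left (par := par) (0 : R) 0 g
  simpa using this

@[simp] lemma smul2_zero_right (f : List α → R) : smul2 par f 0 = 0 := by
  have := smul2_smul_right (par := par) (0 : R) f 0
  simpa using this

lemma smul2_neg_left (f g : List α → R) : smul2 par (-f) g = -smul2 par f g := by
  have := smul2_smul_left (par := par) (-1 : R) f g
  simpa using this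

lemma smul2_neg_right (f g : List α → R) : smul2 par f (-g) = -smul2 par f g := by
  have := smul2_smul_right (par := par) (-1 : R) f g
  simpa using this

lemma tw_smul2 (n : ℕ) (f g : List α → R) :
    tw par n (smul2 par f g) = smul2 par (tw par n f) (tw par n g) := by
  funext L
  induction L generalizing f g with
  | nil => simp
  | cons x L ih =>
    rw [smul2_cons, dd_tw, dd_tw, smul2_smul_left, smul2_smul_right, tw_tw, add_comm (par x) n,
      ← tw_tw, Pi.smul_apply, Pi.smul_apply, ← ih, ← ih]
    simp only [tw_apply, smul2_cons, parL_cons, smul_eq_mul]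
    ring

lemma smul2_assoc (f g h : List α → R) :
    smul2 par (smul2 par f g) h = smul2 par f (smul2 par g h) := by
  funext L
  induction L generalizing f g h with
  | nil => simp [mul_assoc]
  | cons x L ih =>
    rw [smul2_cons, smul2_cons, dd_smul2, dd_smul2, tw_smul2, smul2_add_left, smul2_add_right]
    simp only [Pi.add_apply, ih]
    ring

/-- super commutativity of the product -/
lemma smul2_comm {i j : ℕ} {f g : List α → R} (hf : HasPar par i f) (hg : HasPar par j g) :
    smul2 par f g = ((-1 : R) ^ (i * j)) • smul2 par g f := by
  funext L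
  induction L generalizing f g i j with
  | nil =>
    simp only [smul2_nil, Pi.smul_apply, smul_eq_mul]
    by_cases hi : i % 2 = 0
    · have : (-1 : R) ^ (i * j) = 1 := by
        rw [neg_one_pow_mod (i * j) 0 (by simp [Nat.mul_mod, hi])]; simp
      rw [this]; ring
    · rw [hf [] (by simpa using Ne.symm hi)]; ring
  | cons x L ih =>
    have h1 : HasPar par (i + par x) (dd x f) := by
      intro K hK
      apply hf
      simp only [parL_cons]
      omega
    have h2 : HasPar par (j + par x) (dd x g) := by
      intro K hK
      apply hg
      simp only [parL_cons]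
      omega
    have e1 : tw par (par x) f = ((-1 : R) ^ (par x * i)) • f := by
      funext K
      simp only [tw_apply, Pi.smul_apply, smul_eq_mul]
      by_cases hK : parL par K % 2 = i % 2
      · rw [neg_one_pow_mod (par x * parL par K) (par x * i) (by simp [Nat.mul_mod, hK])]
      · rw [hf K hK]; ring
    have e2 : tw par (par x) g = ((-1 : R) ^ (par x * j)) • g := by
      funext K
      simp only [tw_apply, Pi.smul_apply, smul_eq_mul]
      by_cases hK : parL par K % 2 = j % 2
      · rw [neg_one_pow_mod (par x * parL par K) (par x * j) (by simp [Nat.mul_mod, hK])]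
      · rw [hg K hK]; ring
    simp only [smul2_cons, Pi.smul_apply, smul_eq_mul]
    rw [ih h1 hg, e1, e2, smul2_smul_left, smul2_smul_left]
    simp only [Pi.smul_apply, smul_eq_mul]
    rw [ih hf h2]
    simp only [Pi.smul_apply, smul_eq_mul]
    have k1 : ((-1 : R)) ^ ((i + par x) * j) = (-1) ^ (i * j) * (-1) ^ (par x * j) := by
      rw [← pow_add]; congr 1; ring
    have k2 : ((-1 : R)) ^ (par x * i) * (-1) ^ (i * (j + par x)) = (-1) ^ (i * j) := by
      rw [← pow_add]
      apply neg_one_pow_mod
      have : par x * i + i * (j + par x) = i * j + 2 * (par x * i) := by ring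
      rw [this]; omega
    rw [k1, ← mul_assoc, k2]
    ring

lemma HasPar.dd {i : ℕ} {f : List α → R} (hf : HasPar par i f) (x : α) :
    HasPar par (i + par x) (dd x f) := by
  intro K hK
  apply hf
  simp only [parL_cons]
  omega

lemma HasPar.congr {i j : ℕ} {f : List α → R} (hf : HasPar par i f) (h : i % 2 = j % 2) :
    HasPar par j f := by
  intro K hK
  exact hf K (by rw [h]; exact hK)

lemma tw_of_hasPar {i : ℕ} {f : List α → R} (hf : HasPar par i f) (n : ℕ) :
    tw par n f = ((-1 : R) ^ (n * i)) • f := by
  funext K
  simp only [tw_apply, Pi.smul_apply, smul_eq_mul]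
  by_cases hK : parL par K % 2 = i % 2
  · rw [neg_one_pow_mod (n * parL par K) (n * i) (by simp [Nat.mul_mod, hK])]
  · rw [hf K hK]; ring

end Basic

end Vale.Agent.P269.H207
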