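import Mathlib

/-!
Formal super power series in variables indexed by a type `α` with parity `par : α → ℕ`,
represented by their Taylor coefficients: a series is a function `f : List α → R`, where
`f [x₁, …, xₙ]` is `∂_{xₙ} ⋯ ∂_{x₁} f` at `0` (left derivatives).
-/

set_option autoImplicit false

namespace Vale.Agent.P269.H207

section Defs

variable {α R : Type*} [CommRing R]

/-- total parity of a list of variables -/
def parL (par : α → ℕ) : List α → ℕ
  | [] => 0
  | x :: L => par x + parL par L

/-- left derivative with respect to the variable `x` -/
def dd (x : α) (f : List α → R) : List α → R := fun L => f (x :: L)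

/-- parity twist: multiplication by `(-1)^n` on odd coefficients -/
def tw (par : α → ℕ) (n : ℕ) (f : List α → R) : List α → R :=
  fun L => (-1) ^ (n * parL par L) * f L

/-- product of formal super power series (recursion given by the Leibniz rule) -/
def mulAux (par : α → ℕ) : List α → (List α → R) → (List α → R) → R
  | [], f, g => f [] * g []
  | x :: L, f, g => mulAux par L (dd x f) g + mulAux par L (tw par (par x) f) (dd x g)

/-- product of formal super power series -/
def smul2 (par : α → ℕ) (f g : List α → R) : List α → R := fun L => mulAux par L f g

/-- derivative in the direction of a finite linear combination `v` of variables -/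
noncomputable def dv (v : α →₀ R) (f : List α → R) : List α → R :=
  fun L => v.sum fun x c => c * f (x :: L)

/-- the linear vector field `Σ_x t^x ∂_{A x}` -/
noncomputable def vfAux (A : α → α →₀ R) : List α → (List α → R) → R
  | [], _ => 0
  | x :: L, f => dv (A x) f L + vfAux A L (dd x f)

/-- the linear vector field `Σ_x t^x ∂_{A x}` -/
noncomputable def vf (A : α → α →₀ R) (f : List α → R) : List α → R := fun L => vfAux A L f

/-- the second order operator `Σ β^{xy} ∂_y ∂_x` -/
noncomputable def sec (β : α × α →₀ R) (f : List α → R) : List α → R :=
  fun L => β.sum fun p c => c * f (p.1 :: p.2 :: L)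

/-- the quadratic expression `Σ β^{xy} (twist of ∂_x f) (∂_y g)` -/
noncomputable def spl (par : α → ℕ) (β : α × α →₀ R) (f g : List α → R) : List α → R :=
  fun L => β.sum fun p c => c * smul2 par (tw par (par p.2) (dd p.1 f)) (dd p.2 g) L

/-- the linear series `Σ c_x t^x` -/
def lin (c : α → R) : List α → R
  | [x] => c x
  | _ => 0

/-- the quadratic series `1/2 Σ C_{xy} t^x t^y` (for graded symmetric `C`) -/
def quad (C : α → α → R) : List α → R
  | [x, y] => C x y
  | _ => 0

/-- the constant series -/
def cst (c : R) : List α → R
  | [] => c
  | _ => 0

/-- graded symmetry of the coefficients -/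
def SSym (par : α → ℕ) (f : List α → R) : Prop :=
  ∀ (K : List α) (x y : α) (L : List α),
    f (K ++ x :: y :: L) = (-1) ^ (par x * par y) * f (K ++ y :: x :: L)

/-- `f` has parity `i` -/
def HasPar (par : α → ℕ) (i : ℕ) (f : List α → R) : Prop :=
  ∀ L, parL par L % 2 ≠ i % 2 → f L = 0

/-- `A` preserves parity -/
def EvenOp (par : α → ℕ) (A : α → α →₀ R) : Prop :=
  ∀ x, ∀ y ∈ (A x).support, par y % 2 = par x % 2

end Defs

end Vale.Agent.P269.H207
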