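import Vale.Agent.P269.H207.Sym

/-! Supports (weights and orders in `ħ`) of the Virasoro expressions. -/

set_option autoImplicit false

namespace Vale.Agent.P269.H207

open Finset

variable (X : Target)

/-- twice the weight `m + (p+q)/2 - 1` of a variable -/
def Target.wt (x : X.V) : ℤ := 2 * x.1 + X.p x.2 + X.q x.2 - 2

/-- weight of a list -/
def Target.wtL : List X.V → ℤ
  | [] => 0
  | x :: L => X.wt x + Target.wtL L

@[simp] lemma wtL_nil : X.wtL [] = 0 := rfl
@[simp] lemma wtL_cons (x : X.V) (L : List X.V) : X.wtL (x :: L) = X.wt x + X.wtL L := rfl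

lemma wtL_append (K L : List X.V) : X.wtL (K ++ L) = X.wtL K + X.wtL L := by
  induction K with
  | nil => simp
  | cons x K ih => simp [ih, add_assoc]

/-- all nonzero coefficients `Q^d ħ^e t^L` of `f` satisfy `wt L + 2 e (D-3) - 2 c_1 d = w`,
`n ≤ e` -/
def Supp (w n : ℤ) (f : List X.V → Nov) : Prop :=
  ∀ (L : List X.V) (d : ℕ) (e : ℤ), cf d e (f L) ≠ 0 →
    X.wtL L + 2 * e * (X.D - 3) - 2 * X.c1 * d = w ∧ n ≤ e

variable {X}

lemma Supp.zero (w n : ℤ) : Supp X w n 0 := by
  intro L d e h
  simp at h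

lemma Supp.mono {w n n' : ℤ} {f : List X.V → Nov} (hf : Supp X w n f) (h : n' ≤ n) :
    Supp X w n' f := fun L d e he => ⟨(hf L d e he).1, h.trans (hf L d e he).2⟩

lemma Supp.add {w n : ℤ} {f g : List X.V → Nov} (hf : Supp X w n f) (hg : Supp X w n g) :
    Supp X w n (f + g) := by
  intro L d e h
  rw [Pi.add_apply, cf_add] at h
  by_cases h1 : cf d e (f L) = 0
  · rw [h1, zero_add] at h
    exact hg L d e h
  · exact hf L d e h1

lemma Supp.neg {w n : ℤ} {f : List X.V → Nov} (hf : Supp X w n f) : Supp X w n (-f) := by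
  intro L d e h
  rw [Pi.neg_apply, cf_neg] at h
  exact hf L d e (by simpa using h)

lemma Supp.finsetSum {ι : Type*} (s : Finset ι) {w n : ℤ} (f : ι → List X.V → Nov)
    (hf : ∀ i ∈ s, Supp X w n (f i)) : Supp X w n (∑ i ∈ s, f i) := by
  classical
  induction s using Finset.induction_on with
  | empty => simpa using Supp.zero w n
  | insert a s ha ih =>
    rw [Finset.sum_insert ha]
    exact (hf a (Finset.mem_insert_self a s)).add
      (ih fun i hi => hf i (Finset.mem_insert_of_mem hi))

lemma Supp.map_smul {w n : ℤ} {f : List X.V → Nov} (hf : Supp X w n f) (r : ℂ) :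
    Supp X w n (algebraMap ℂ Nov r • f) := by
  intro L d e h
  rw [Pi.smul_apply, smul_eq_mul, cf_map_mul] at h
  exact hf L d e (right_ne_zero_of_mul h)

lemma Supp.hb_smul {w n : ℤ} {f : List X.V → Nov} (hf : Supp X w n f) :
    Supp X (w + 2 * (X.D - 3)) (n + 1) (hb • f) := by
  intro L d e h
  rw [Pi.smul_apply, smul_eq_mul, cf_hb_mul] at h
  have := hf L d (e - 1) h
  constructor
  · linear_combination this.1
  · omega

lemma Supp.hbi_smul {w n : ℤ} {f : List X.V → Nov} (hf : Supp X w n f) :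
    Supp X (w - 2 * (X.D - 3)) (n - 1) (hbi • f) := by
  intro L d e h
  rw [Pi.smul_apply, smul_eq_mul, cf_hbi_mul] at h
  have := hf L d (e + 1) h
  constructor
  · linear_combination this.1
  · omega

lemma Supp.dd {w n : ℤ} {f : List X.V → Nov} (hf : Supp X w n f) (x : X.V) :
    Supp X (w - X.wt x) n (H207.dd x f) := by
  intro L d e h
  have := hf (x :: L) d e h
  rw [wtL_cons] at this
  exact ⟨by linear_combination this.1, this.2⟩

lemma cf_neg_one_pow_mul (k d : ℕ) (e : ℤ) (a : Nov) :
    cf d e ((-1) ^ k * a) = (-1) ^ k * cf d e a := by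
  induction k generalizing a with
  | zero => simp
  | succ k ih =>
    have h : (-1 : Nov) ^ (k + 1) * a = (-1) ^ k * (-a) := by ring
    rw [h, ih, cf_neg]
    ring

lemma Supp.tw {w n : ℤ} {f : List X.V → Nov} (hf : Supp X w n f) (k : ℕ) :
    Supp X w n (tw X.par k f) := by
  intro L d e h
  rw [tw_apply, cf_neg_one_pow_mul] at h
  exact hf L d e (right_ne_zero_of_mul h)

lemma Supp.smul2 {w w' n n' : ℤ} {f g : List X.V → Nov} (hf : Supp X w n f)
    (hg : Supp X w' n' g) : Supp X (w + w') (n + n') (smul2 X.par f g) := by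
  intro L
  induction L generalizing f g w w' with
  | nil =>
    intro d e h
    rw [smul2_nil] at h
    obtain ⟨d1, d2, e1, e2, hd, he, h1, h2⟩ := cf_mul_ne d e _ _ h
    have t1 := hf [] d1 e1 h1
    have t2 := hg [] d2 e2 h2
    subst hd he
    simp only [wtL_nil] at t1 t2 ⊢
    constructor
    · push_cast
      linear_combination t1.1 + t2.1
    · omega
  | cons x L ih =>
    intro d e h
    rw [smul2_cons, cf_add] at h
    by_cases h1 : cf d e (H207.smul2 X.par (H207.dd x f) g L) = 0
    · rw [h1, zero_add] at h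
      have := ih (hf.tw (X.par x)) (hg.dd x) d e h
      rw [wtL_cons]
      exact ⟨by linear_combination this.1, this.2⟩
    · have := ih (hf.dd x) hg d e h1
      rw [wtL_cons]
      exact ⟨by linear_combination this.1, this.2⟩

lemma Supp.dv_AK {w n : ℤ} {f : List X.V → Nov} (hf : Supp X w n f) (K : ℕ) (x : X.V) :
    Supp X (w - X.wt x - 2 * (K - 1)) n (dv (AK X Nov K x) f) := by
  unfold AK
  rw [dv_finsetSum]
  refine Supp.finsetSum _ _ fun i _ => ?_
  rw [dv_finsetSum]
  refine Supp.finsetSum _ _ fun b _ => ?_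
  split_ifs with hc
  · rw [dv_single]
    by_cases hb : (X.R ^ i) x.2 b = 0
    · have h0 : algebraMap ℂ Nov (br K i (X.b x.2 + x.1) * (X.R ^ i) x.2 b)
          • H207.dd (x.1 + K - 1 - i, b) f = 0 := by
        rw [hb, mul_zero, map_zero]
        funext M
        simp
      rw [h0]
      exact Supp.zero _ _
    · have ht := X.R_pow_type i x.2 b hb
      have h1 := (hf.dd (x.1 + K - 1 - i, b)).map_smul (br K i (X.b x.2 + x.1) * (X.R ^ i) x.2 b)
      have hw : w - X.wt (x.1 + K - 1 - i, b) = w - X.wt x - 2 * (K - 1) := by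
        simp only [Target.wt]
        have e1 : ((x.1 + K - 1 - i : ℕ) : ℤ) = x.1 + K - 1 - i := by omega
        rw [e1]
        have e2 := ht.1
        have e3 := ht.2
        rw [e2, e3]
        push_cast
        ring
      rwa [hw] at h1
  · rw [dv_zero_left]
    exact Supp.zero _ _

lemma Supp.vf_AK {w n : ℤ} {f : List X.V → Nov} (hf : Supp X w n f) (K : ℕ) :
    Supp X (w - 2 * (K - 1)) n (vf (AK X Nov K) f) := by
  intro L
  induction L generalizing f w with
  | nil => intro d e h; simp at h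
  | cons x L ih =>
    intro d e h
    rw [vf_cons, cf_add] at h
    rw [wtL_cons]
    by_cases h1 : cf d e (dv (AK X Nov K x) f L) = 0
    · rw [h1, zero_add] at h
      have := ih (hf.dd x) d e h
      exact ⟨by linear_combination this.1, this.2⟩
    · have := (hf.dv_AK K x) L d e h1
      exact ⟨by linear_combination this.1, this.2⟩

lemma wt_BK (K : ℕ) (p : X.V × X.V) (hp : p ∈ (BK X Nov K).support) :
    X.wt p.1 + X.wt p.2 = 2 * (K - 1) + 2 * (X.D - 3) := by
  obtain ⟨i, m, a, b, hi, hm, rfl, hab⟩ := BK_supp X K p hp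
  have ht := X.up_type i a b hab
  simp only [Target.wt]
  have e1 : ((K - 2 - i - m : ℕ) : ℤ) = K - 2 - i - m := by omega
  rw [e1]
  have e2 : (X.p a : ℤ) + X.p b = X.D + i := by exact_mod_cast ht.1
  have e3 : (X.q a : ℤ) + X.q b = X.D + i := by exact_mod_cast ht.2
  linear_combination e2 + e3

/-- the coefficients of `BK` are complex numbers -/
lemma BK_coeff (K : ℕ) (p : X.V × X.V) : ∃ r : ℂ, BK X Nov K p = algebraMap ℂ Nov r := by
  classical
  unfold BK
  simp only [Finsupp.finsetSum_apply, Finsupp.single_apply]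
  have h : ∀ (c : Prop) [Decidable c] (r : ℂ), (if c then algebraMap ℂ Nov r else 0)
      = algebraMap ℂ Nov (if c then r else 0) := by
    intro c _ r
    split_ifs <;> simp
  simp only [h, ← map_sum]
  exact ⟨_, rfl⟩

lemma Supp.sec_BK {w n : ℤ} {f : List X.V → Nov} (hf : Supp X w n f) (K : ℕ) :
    Supp X (w - 2 * (K - 1)) (n + 1) (sec (hb • BK X Nov K) f) := by
  have e : sec (hb • BK X Nov K) f
      = hb • ∑ p ∈ (BK X Nov K).support, (BK X Nov K p) • H207.dd p.2 (H207.dd p.1 f) := by
    rw [sec_smul_left]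
    congr 1
    funext L
    simp [sec_apply, Finsupp.sum]
  rw [e]
  have h1 : Supp X (w - 2 * (K - 1) - 2 * (X.D - 3)) n
      (∑ p ∈ (BK X Nov K).support, (BK X Nov K p) • H207.dd p.2 (H207.dd p.1 f)) := by
    refine Supp.finsetSum _ _ fun p hp => ?_
    obtain ⟨r, hr⟩ := BK_coeff (X := X) K p
    rw [hr]
    have h2 := ((hf.dd p.1).dd p.2).map_smul r
    have hw := wt_BK K p hp
    have : w - X.wt p.1 - X.wt p.2 = w - 2 * (K - 1) - 2 * (X.D - 3) := by
      linear_combination -hw
    rwa [this] at h2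
  have h3 := h1.hb_smul
  have : w - 2 * ((K : ℤ) - 1) - 2 * (X.D - 3) + 2 * (X.D - 3) = w - 2 * (K - 1) := by ring
  rwa [this] at h3

lemma Supp.spl_BK {w w' n n' : ℤ} {f g : List X.V → Nov} (hf : Supp X w n f)
    (hg : Supp X w' n' g) (K : ℕ) :
    Supp X (w + w' - 2 * (K - 1)) (n + n' + 1) (spl X.par (hb • BK X Nov K) f g) := by
  have e : spl X.par (hb • BK X Nov K) f g
      = hb • ∑ p ∈ (BK X Nov K).support, (BK X Nov K p)
        • H207.smul2 X.par (H207.tw X.par (X.par p.2) (H207.dd p.1 f)) (H207.dd p.2 g) := by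
    rw [spl_smul_left]
    congr 1
    funext L
    simp [spl_apply, Finsupp.sum]
  rw [e]
  have h1 : Supp X (w + w' - 2 * (K - 1) - 2 * (X.D - 3)) (n + n')
      (∑ p ∈ (BK X Nov K).support, (BK X Nov K p)
        • H207.smul2 X.par (H207.tw X.par (X.par p.2) (H207.dd p.1 f)) (H207.dd p.2 g)) := by
    refine Supp.finsetSum _ _ fun p hp => ?_
    obtain ⟨r, hr⟩ := BK_coeff (X := X) K p
    rw [hr]
    have h2 := (((hf.dd p.1).tw (X.par p.2)).smul2 (hg.dd p.2)).map_smul r
    have hw := wt_BK K p hp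
    have : w - X.wt p.1 + (w' - X.wt p.2) = w + w' - 2 * (K - 1) - 2 * (X.D - 3) := by
      linear_combination -hw
    rwa [this] at h2
  have h3 := h1.hb_smul
  have : w + w' - 2 * ((K : ℤ) - 1) - 2 * (X.D - 3) + 2 * (X.D - 3)
      = w + w' - 2 * (K - 1) := by ring
  rwa [this] at h3

lemma cf_map (r : ℂ) (d : ℕ) (e : ℤ) :
    cf d e (algebraMap ℂ Nov r) = if d = 0 ∧ e = 0 then r else 0 := by
  rw [algebraMap_Nov, cf, PowerSeries.coeff_C]
  by_cases hd : d = 0
  · rw [if_pos hd, HahnSeries.coeff_single]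
    by_cases he : e = 0
    · simp [hd, he]
    · simp [he]
  · simp [hd]

lemma Supp.quad_CK (K : ℕ) :
    Supp X (-2 * (K - 1)) (-1) (quad fun x y => hbi * CK X Nov K x y) := by
  intro L d e h
  match L with
  | [] => simp at h
  | [x] => simp at h
  | x :: y :: z :: L => simp at h
  | [x, y] =>
    rw [quad_two, cf_hbi_mul, CK] at h
    by_cases hc : x.1 = 0 ∧ y.1 = 0
    · rw [if_pos hc, cf_map] at h
      split_ifs at h with hde
      · have ht := X.down_type K x.2 y.2 h
        simp only [wtL_cons, wtL_nil, Target.wt, hc.1, hc.2]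
        obtain ⟨hd, he⟩ := hde
        have he' : e = -1 := by omega
        subst hd he'
        constructor
        · have e2 : (X.p x.2 : ℤ) + X.p y.2 + K = X.D := by exact_mod_cast ht.1
          have e3 : (X.q x.2 : ℤ) + X.q y.2 + K = X.D := by exact_mod_cast ht.2
          push_cast
          linear_combination e2 + e3
        · exact le_refl _
      · exact absurd rfl h
    · rw [if_neg hc] at h
      simp at h

lemma Supp.cst_cK (K : ℕ) : Supp X (-2 * (K - 1)) (-1) (cst (cK X Nov K)) := by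
  intro L d e h
  match L with
  | x :: L => simp at h
  | [] =>
    rw [cst_nil, cK] at h
    split_ifs at h with hK
    · rw [cf_map] at h
      split_ifs at h with hde
      · obtain ⟨hd, he⟩ := hde
        subst hK hd he
        simp
      · exact absurd rfl h
    · simp at h

lemma zN_supp (K : ℕ) {F : List X.V → Nov} (hF : Supp X 0 (-1) F) :
    Supp X (-2 * (K - 1)) (-1) (zN X K F) := by
  unfold zN zz
  have h1 : Supp X (-2 * (K - 1)) (-1) (-dv (AK X Nov K (1, X.one)) F) := by
    have := (hF.dv_AK K (1, X.one)).neg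
    have hw : X.wt (1, X.one) = 0 := by simp [Target.wt, X.p_one, X.q_one]
    rw [hw] at this
    have e : (0 : ℤ) - 0 - 2 * (K - 1) = -2 * (K - 1) := by ring
    rwa [e] at this
  have h2 : Supp X (-2 * (K - 1)) (-1) (vf (AK X Nov K) F) := by
    have := hF.vf_AK K
    have e : (0 : ℤ) - 2 * (K - 1) = -2 * (K - 1) := by ring
    rwa [e] at this
  have h3 : Supp X (-2 * (K - 1)) (-1) ((1 : Nov) • sec (hb • BK X Nov K) F) := by
    have := (hF.sec_BK K).mono (n' := -1) (by omega)
    have e : (0 : ℤ) - 2 * (K - 1) = -2 * (K - 1) := by ring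
    rw [e] at this
    rwa [one_smul]
  have h4 : Supp X (-2 * (K - 1)) (-1) (spl X.par (hb • BK X Nov K) F F) := by
    have := (hF.spl_BK hF K).mono (n' := -1) (by omega)
    have e : (0 : ℤ) + 0 - 2 * (K - 1) = -2 * (K - 1) := by ring
    rwa [e] at this
  exact ((((h1.add h2).add h3).add h4).add (Supp.quad_CK K)).add (Supp.cst_cK K)

end Vale.Agent.P269.H207
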