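import Vale.Agent.P269.H207.Coef

/-! Graded symmetry and parity of the Virasoro expressions. -/

set_option autoImplicit false

namespace Vale.Agent.P269.H207

open Finset

section

variable {α R : Type*} [CommRing R] {par : α → ℕ}

lemma parL_swap (K : List α) (x y : α) (L : List α) :
    parL par (K ++ x :: y :: L) = parL par (K ++ y :: x :: L) := by
  simp only [parL_append, parL_cons]; ring

lemma SSym.tw {f : List α → R} (hf : SSym par f) (n : ℕ) : SSym par (tw par n f) := by
  intro K x y L
  simp only [tw_apply, parL_swap K x y L, hf K x y L]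
  ring

lemma SSym.smul2 {f g : List α → R} (hf : SSym par f) (hg : SSym par g) :
    SSym par (H207.smul2 par f g) := by
  intro K
  induction K generalizing f g with
  | nil =>
    intro x y L
    simp only [List.nil_append]
    have hs : ∀ z w : α, H207.smul2 par f g (z :: w :: L)
        = H207.smul2 par (H207.dd w (H207.dd z f)) g L
          + H207.smul2 par (H207.tw par (par w) (H207.dd z f)) (H207.dd w g) L
          + ((-1) ^ (par z * par w) * H207.smul2 par (H207.tw par (par z) (H207.dd w f))
              (H207.dd z g) L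
          + H207.smul2 par (H207.tw par (par w + par z) f) (H207.dd w (H207.dd z g)) L) := by
      intro z w
      rw [smul2_cons, smul2_cons, smul2_cons, dd_tw, smul2_smul_left, tw_tw]
      rfl
    rw [hs x y, hs y x]
    have e1 : H207.dd y (H207.dd x f) = ((-1 : R) ^ (par x * par y))
        • H207.dd x (H207.dd y f) := by
      rw [hf.swap y x, mul_comm]
    have e2 : H207.dd y (H207.dd x g) = ((-1 : R) ^ (par x * par y))
        • H207.dd x (H207.dd y g) := by
      rw [hg.swap y x, mul_comm]
    rw [e1, e2, smul2_smul_left, smul2_smul_right]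
    simp only [Pi.smul_apply, smul_eq_mul]
    have h2 : ((-1 : R)) ^ (par x * par y) * (-1) ^ (par y * par x) = 1 := by
      rw [← pow_add, neg_one_pow_mod _ 0 (by rw [mul_comm (par y)]; omega)]
      simp
    rw [add_comm (par y) (par x)]
    linear_combination
      (-(H207.smul2 par (H207.tw par (par y) (H207.dd x f)) (H207.dd y g) L)) * h2
  | cons z K ih =>
    intro x y L
    simp only [List.cons_append, smul2_cons]
    rw [ih (hf.dd z) hg x y L, ih (hf.tw (par z)) (hg.dd z) x y L]
    ring

lemma SSym.zero : SSym par (0 : List α → R) := by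
  intro K x y L; simp

lemma SSym.neg {f : List α → R} (hf : SSym par f) : SSym par (-f) := by
  intro K x y L
  simp only [Pi.neg_apply, hf K x y L]
  ring

lemma SSym.finsetSum {ι : Type*} (s : Finset ι) (f : ι → List α → R)
    (hf : ∀ i ∈ s, SSym par (f i)) : SSym par (∑ i ∈ s, f i) := by
  intro K x y L
  simp only [Finset.sum_apply, Finset.mul_sum]
  exact Finset.sum_congr rfl fun i hi => hf i hi K x y L

lemma SSym.dv {f : List α → R} (hf : SSym par f) (v : α →₀ R) : SSym par (dv v f) := by
  rw [dv_eq_sum]
  exact SSym.finsetSum _ _ fun x _ => (hf.dd x).smul _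

lemma SSym.vf {f : List α → R} (hf : SSym par f) {A : α → α →₀ R} (hA : EvenOp par A) :
    SSym par (vf A f) := by
  intro K
  induction K generalizing f with
  | nil =>
    intro x y L
    simp only [List.nil_append, vf_cons]
    have hs : ∀ (z w : α) (M : List α), H207.dv (A z) f (w :: M)
        = (-1) ^ (par z * par w) * H207.dv (A z) (H207.dd w f) M := by
      intro z w M
      simp only [dv_apply, Finsupp.sum, Finset.mul_sum]
      refine Finset.sum_congr rfl fun v hv => ?_
      have h1 := hf [] v w M
      simp only [List.nil_append] at h1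
      rw [h1, neg_one_pow_mod (par v * par w) (par z * par w)
        (by rw [Nat.mul_mod, hA z v hv, ← Nat.mul_mod])]
      simp only [dd_apply]
      ring
    rw [hs x y, hs y x]
    have e1 : H207.dd y (H207.dd x f) = ((-1 : R) ^ (par x * par y))
        • H207.dd x (H207.dd y f) := by
      rw [hf.swap y x, mul_comm]
    rw [e1, vf_smul]
    simp only [Pi.smul_apply, smul_eq_mul]
    have h2 : ((-1 : R)) ^ (par x * par y) * (-1) ^ (par y * par x) = 1 := by
      rw [← pow_add, neg_one_pow_mod _ 0 (by rw [mul_comm (par y)]; omega)]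
      simp
    linear_combination (-(H207.dv (A y) (H207.dd x f) L)) * h2
  | cons z K ih =>
    intro x y L
    simp only [List.cons_append, vf_cons]
    rw [ih (hf.dd z) x y L, (hf.dv (A z)) K x y L]
    ring

lemma SSym.sec {f : List α → R} (hf : SSym par f) (β : α × α →₀ R) : SSym par (sec β f) := by
  have : H207.sec β f = ∑ p ∈ β.support, (β p) • H207.dd p.2 (H207.dd p.1 f) := by
    funext L
    simp [sec_apply, Finsupp.sum]
  rw [this]
  exact SSym.finsetSum _ _ fun p _ => ((hf.dd p.1).dd p.2).smul _

lemma SSym.spl {f g : List α → R} (hf : SSym par f) (hg : SSym par g) (β : α × α →₀ R) :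
    SSym par (spl par β f g) := by
  have : H207.spl par β f g = ∑ p ∈ β.support, (β p)
      • H207.smul2 par (H207.tw par (par p.2) (H207.dd p.1 f)) (H207.dd p.2 g) := by
    funext L
    simp [spl_apply, Finsupp.sum]
  rw [this]
  exact SSym.finsetSum _ _ fun p _ =>
    (((hf.dd p.1).tw (par p.2)).smul2 (hg.dd p.2)).smul _

lemma SSym.quad {C : α → α → R} (hC : ∀ x y, C x y = (-1) ^ (par x * par y) * C y x) :
    SSym par (quad C) := by
  intro K x y L
  match K, L with
  | [], [] => simpa using hC x y
  | [], z :: L => simp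
  | [z], L => simp
  | z :: w :: K, L =>
    cases K with
    | nil => simp
    | cons v K => simp

lemma SSym.cst (c : R) : SSym par (cst c) := by
  intro K x y L
  match K with
  | [] => simp
  | z :: K => simp

lemma SSym.zz {h : R} {e : α} {A : α → α →₀ R} (hA : EvenOp par A) {β : α × α →₀ R}
    {C : α → α → R} (hC : ∀ x y, C x y = (-1) ^ (par x * par y) * C y x) {c : R}
    {f : List α → R} (hf : SSym par f) : SSym par (zz par h e A β C c f) := by
  unfold H207.zz
  exact (((((hf.dv _).neg).add (hf.vf hA)).add ((hf.sec β).smul h)).add (hf.spl hf β)).add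
    (SSym.quad hC) |>.add (SSym.cst c)

end

variable (X : Target) {R' : Type*} [CommRing R'] [Algebra ℂ R']

lemma CK_symm (K : ℕ) (x y : X.V) :
    CK X R' K x y = (-1) ^ (X.par x * X.par y) * CK X R' K y x := by
  obtain ⟨m, a⟩ := x
  obtain ⟨n, c⟩ := y
  unfold CK
  by_cases h : m = 0 ∧ n = 0
  · rw [if_pos h, if_pos (by simpa [and_comm] using h)]
    simp only
    rw [X.down_symm K a c, map_mul, map_pow, map_neg, map_one]
    rfl
  · rw [if_neg h, if_neg (by
      intro h'
      exact h ⟨h'.2, h'.1⟩), mul_zero]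

lemma BK_supp (K : ℕ) (p : X.V × X.V) (hp : p ∈ (BK X R' K).support) :
    ∃ i m a b, i < K ∧ m < K - 1 - i ∧ p = ((m, a), (K - 2 - i - m, b))
      ∧ (X.η⁻¹ * X.R ^ i) a b ≠ 0 := by
  classical
  unfold BK at hp
  obtain ⟨i, hi, hp⟩ := Finset.mem_biUnion.mp (Finsupp.support_finsetSum hp)
  obtain ⟨m, hm, hp⟩ := Finset.mem_biUnion.mp (Finsupp.support_finsetSum hp)
  obtain ⟨a, -, hp⟩ := Finset.mem_biUnion.mp (Finsupp.support_finsetSum hp)
  obtain ⟨b, -, hp⟩ := Finset.mem_biUnion.mp (Finsupp.support_finsetSum hp)
  have h1 := Finsupp.support_single_subset hp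
  rw [Finset.mem_singleton] at h1
  refine ⟨i, m, a, b, by simpa using hi, by simpa using hm, h1, ?_⟩
  intro h0
  rw [h0, mul_zero, map_zero, Finsupp.single_zero] at hp
  simp at hp

lemma BK_par (K : ℕ) (h : R') (p : X.V × X.V) (hp : p ∈ (h • BK X R' K).support) :
    X.par p.1 % 2 = X.par p.2 % 2 := by
  obtain ⟨i, m, a, b, hi, hm, rfl, hab⟩ := BK_supp X K p (Finsupp.support_smul hp)
  have := X.up_type i a b hab
  simp only [Target.par]
  omega

/-- The Virasoro expression `Z⁻¹ L_k Z`, `K = k + 1`, for `Z = exp F`. -/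
noncomputable def zN (K : ℕ) (F : List X.V → Nov) : List X.V → Nov :=
  zz X.par 1 (1, X.one) (AK X Nov K) (hb • BK X Nov K) (fun x y => hbi * CK X Nov K x y)
    (cK X Nov K) F

lemma zN_ssym (K : ℕ) {F : List X.V → Nov} (hF : SSym X.par F) : SSym X.par (zN X K F) := by
  refine SSym.zz (AK_even X K) (fun x y => ?_) hF
  rw [CK_symm X K x y]
  ring

lemma par_one (m : ℕ) : X.par (m, X.one) = 0 := by
  simp [Target.par, X.p_one, X.q_one]

theorem zN_descent (K : ℕ) {F : List X.V → Nov} (hF : SSym X.par F) (hF0 : HasPar X.par 0 F)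
    (string : dd (0, X.one) F = vf (AK X Nov 0) F + quad (eta' X Nov hbi)) :
    dd (0, X.one) (zN X (K + 1) F) = vf (AK X Nov 0) (zN X (K + 1) F)
      + ((K : Nov) + 1) • zN X K F := by
  refine descent (par := X.par) (hb := 1) (K := (K : Nov) + 1) (o := (0, X.one))
    (e := (1, X.one)) (by rw [par_one]) (AK_even X 0)
    (fun p hp => BK_par X (K + 1) hb p hp) (η := eta' X Nov hbi)
    (fun x y h => eta'_par X hbi x y h) hF hF0 string ?_ ?_ ?_ ?_ ?_ ?_
  · exact relR1 X K
  · exact fun z => relR2 X K hb hbi hb_mul_hbi z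
  · exact relR3 X K hb
  · exact fun y => relR4 X K hbi y
  · exact fun x y => relR5 X K hbi x y
  · exact relR6 X K hb hbi hb_mul_hbi

end Vale.Agent.P269.H207
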