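import Vale.Agent.P269.H207.Br

/-! Linear algebra of a target. -/

set_option autoImplicit false

namespace Vale.Agent.P269.H207

open Finset Matrix

variable (X : Target)

lemma Target.R_pow_type (i : ℕ) (a b : X.ι) (h : (X.R ^ i) a b ≠ 0) :
    X.p b = X.p a + i ∧ X.q b = X.q a + i := by
  induction i generalizing b with
  | zero =>
    rw [pow_zero, Matrix.one_apply] at h
    have : a = b := by
      by_contra hab
      exact h (if_neg hab)
    subst this
    simp
  | succ i ih =>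
    rw [pow_succ, Matrix.mul_apply] at h
    obtain ⟨c, -, hc⟩ := Finset.exists_ne_zero_of_sum_ne_zero h
    have h1 := ih c (left_ne_zero_of_mul hc)
    have h2 := X.R_type c b (right_ne_zero_of_mul hc)
    omega

lemma Target.inv_type (a b : X.ι) (h : X.η⁻¹ a b ≠ 0) :
    X.p a + X.p b = X.D ∧ X.q a + X.q b = X.D := by
  have key : ∀ w : X.ι → ℕ, (∀ a b, X.η a b ≠ 0 → w a + w b = X.D) → w a + w b = X.D := by
    intro w hw
    have h1 : Matrix.diagonal (fun a => (2 : ℂ) ^ w a) * X.η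
        * Matrix.diagonal (fun a => (2 : ℂ) ^ w a) = (2 : ℂ) ^ X.D • X.η := by
      ext i j
      rw [Matrix.mul_diagonal, Matrix.diagonal_mul, Matrix.smul_apply, smul_eq_mul]
      by_cases hij : X.η i j = 0
      · simp [hij]
      · rw [← hw i j hij, pow_add]
        ring
    have h2 : X.η⁻¹ = (2 : ℂ) ^ X.D • (Matrix.diagonal (fun a => ((2 : ℂ) ^ w a)⁻¹) * X.η⁻¹
        * Matrix.diagonal (fun a => ((2 : ℂ) ^ w a)⁻¹)) := by
      apply Matrix.inv_eq_right_inv
      have hd : Matrix.diagonal (fun a => ((2 : ℂ) ^ w a)⁻¹)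
          * Matrix.diagonal (fun a => (2 : ℂ) ^ w a) = 1 := by
        rw [Matrix.diagonal_mul_diagonal, ← Matrix.diagonal_one]
        congr 1
        funext x
        exact inv_mul_cancel₀ (pow_ne_zero _ two_ne_zero)
      have hd' : Matrix.diagonal (fun a => (2 : ℂ) ^ w a)
          * Matrix.diagonal (fun a => ((2 : ℂ) ^ w a)⁻¹) = 1 := by
        rw [Matrix.diagonal_mul_diagonal, ← Matrix.diagonal_one]
        congr 1
        funext x
        exact mul_inv_cancel₀ (pow_ne_zero _ two_ne_zero)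
      have hη : X.η * X.η⁻¹ = 1 := Matrix.mul_nonsing_inv _ X.η_nondeg
      calc X.η * ((2 : ℂ) ^ X.D • (Matrix.diagonal (fun a => ((2 : ℂ) ^ w a)⁻¹) * X.η⁻¹
            * Matrix.diagonal (fun a => ((2 : ℂ) ^ w a)⁻¹)))
          = ((2 : ℂ) ^ X.D • X.η) * (Matrix.diagonal (fun a => ((2 : ℂ) ^ w a)⁻¹) * X.η⁻¹
            * Matrix.diagonal (fun a => ((2 : ℂ) ^ w a)⁻¹)) := by
            rw [Matrix.mul_smul, Matrix.smul_mul]
        _ = Matrix.diagonal (fun a => (2 : ℂ) ^ w a) * X.η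
              * (Matrix.diagonal (fun a => (2 : ℂ) ^ w a)
              * Matrix.diagonal (fun a => ((2 : ℂ) ^ w a)⁻¹)) * X.η⁻¹
              * Matrix.diagonal (fun a => ((2 : ℂ) ^ w a)⁻¹) := by
            rw [← h1]; simp only [Matrix.mul_assoc]
        _ = Matrix.diagonal (fun a => (2 : ℂ) ^ w a) * (X.η * X.η⁻¹)
              * Matrix.diagonal (fun a => ((2 : ℂ) ^ w a)⁻¹) := by
            rw [hd', Matrix.mul_one]; simp only [Matrix.mul_assoc]
        _ = 1 := by rw [hη, Matrix.mul_one, hd']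
    have h3 := congrFun (congrFun h2 a) b
    rw [Matrix.smul_apply, Matrix.mul_diagonal, Matrix.diagonal_mul, smul_eq_mul] at h3
    have h4 : (2 : ℂ) ^ (w a + w b) = 2 ^ X.D := by
      have ha : ((2 : ℂ) ^ w a) ≠ 0 := pow_ne_zero _ two_ne_zero
      have hb : ((2 : ℂ) ^ w b) ≠ 0 := pow_ne_zero _ two_ne_zero
      have : (2 : ℂ) ^ (w a + w b) * X.η⁻¹ a b = 2 ^ X.D * X.η⁻¹ a b := by
        calc (2 : ℂ) ^ (w a + w b) * X.η⁻¹ a b
            = (2 : ℂ) ^ (w a + w b)
              * (2 ^ X.D * (((2 : ℂ) ^ w a)⁻¹ * X.η⁻¹ a b * ((2 : ℂ) ^ w b)⁻¹)) := by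
              rw [← h3]
          _ = 2 ^ X.D * X.η⁻¹ a b := by
              rw [pow_add]
              field_simp
      exact mul_right_cancel₀ h this
    have h5 : (2 : ℕ) ^ (w a + w b) = 2 ^ X.D := by exact_mod_cast h4
    exact Nat.pow_right_injective (le_refl 2) h5
  exact ⟨key X.p fun a b hab => (X.η_type a b hab).1, key X.q fun a b hab => (X.η_type a b hab).2⟩

lemma Target.R_eta : X.R * X.η = X.η * X.Rᵀ := by
  ext a b
  rw [Matrix.mul_apply, Matrix.mul_apply]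
  rw [X.R_adj a b]
  exact Finset.sum_congr rfl fun c _ => by rw [Matrix.transpose_apply, mul_comm]

lemma Target.R_pow_eta (i : ℕ) : X.R ^ i * X.η = X.η * (X.R ^ i)ᵀ := by
  induction i with
  | zero => simp
  | succ i ih =>
    rw [pow_succ', Matrix.mul_assoc, ih, ← Matrix.mul_assoc, X.R_eta, Matrix.mul_assoc,
      ← Matrix.transpose_mul, ← pow_succ, pow_succ']

lemma Target.inv_R_pow_eta (i : ℕ) : X.η⁻¹ * X.R ^ i * X.η = (X.R ^ i)ᵀ := by
  rw [Matrix.mul_assoc, X.R_pow_eta, ← Matrix.mul_assoc, Matrix.nonsing_inv_mul _ X.η_nondeg,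
    Matrix.one_mul]

lemma Target.eta_inv_R_pow (i : ℕ) : X.η * (X.η⁻¹ * X.R ^ i) = X.R ^ i := by
  rw [← Matrix.mul_assoc, Matrix.mul_nonsing_inv _ X.η_nondeg, Matrix.one_mul]

/-- type of `(c_1^i)^{ab}` -/
lemma Target.up_type (i : ℕ) (a b : X.ι) (h : (X.η⁻¹ * X.R ^ i) a b ≠ 0) :
    X.p a + X.p b = X.D + i ∧ X.q a + X.q b = X.D + i := by
  rw [Matrix.mul_apply] at h
  obtain ⟨c, -, hc⟩ := Finset.exists_ne_zero_of_sum_ne_zero h
  have h1 := X.inv_type a c (left_ne_zero_of_mul hc)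
  have h2 := X.R_pow_type i c b (right_ne_zero_of_mul hc)
  omega

/-- type of `∫ c_1^i φ_a φ_b` -/
lemma Target.down_type (i : ℕ) (a b : X.ι) (h : (X.R ^ i * X.η) a b ≠ 0) :
    X.p a + X.p b + i = X.D ∧ X.q a + X.q b + i = X.D := by
  rw [Matrix.mul_apply] at h
  obtain ⟨c, -, hc⟩ := Finset.exists_ne_zero_of_sum_ne_zero h
  have h1 := X.R_pow_type i a c (left_ne_zero_of_mul hc)
  have h2 := X.η_type c b (right_ne_zero_of_mul hc)
  omega

lemma neg_one_pow_mod' {R : Type*} [CommRing R] (a b : ℕ) (h : a % 2 = b % 2) :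
    ((-1 : R)) ^ a = (-1) ^ b := neg_one_pow_mod a b h

lemma Target.down_symm (i : ℕ) (a b : X.ι) :
    (X.R ^ i * X.η) a b
      = (-1) ^ ((X.p a + X.q a) * (X.p b + X.q b)) * (X.R ^ i * X.η) b a := by
  have h1 : (X.R ^ i * X.η) a b = ∑ c, X.η a c * (X.R ^ i) b c := by
    rw [X.R_pow_eta, Matrix.mul_apply]
    rfl
  rw [h1, Matrix.mul_apply, Finset.mul_sum]
  refine Finset.sum_congr rfl fun c _ => ?_
  by_cases hc : (X.R ^ i) b c = 0
  · simp [hc]
  · have ht := X.R_pow_type i b c hc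
    rw [X.η_symm a c]
    have : ((-1 : ℂ)) ^ ((X.p a + X.q a) * (X.p c + X.q c))
        = (-1) ^ ((X.p a + X.q a) * (X.p b + X.q b)) := by
      apply neg_one_pow_mod
      rw [Nat.mul_mod, Nat.mul_mod (X.p a + X.q a) (X.p b + X.q b)]
      congr 2
      omega
    rw [this]
    ring

/-- supertrace of the inverse pairing -/
lemma Target.sum_inv_eta (a : X.ι) :
    ∑ b, X.η⁻¹ a b * X.η a b = (-1) ^ (X.p a + X.q a) := by
  have h1 : ∀ b, X.η⁻¹ a b * X.η a b = (-1) ^ (X.p a + X.q a) * (X.η⁻¹ a b * X.η b a) := by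
    intro b
    by_cases hb : X.η b a = 0
    · rw [X.η_symm a b, hb]; ring
    · have ht := X.η_type b a hb
      rw [X.η_symm a b]
      have : ((-1 : ℂ)) ^ ((X.p a + X.q a) * (X.p b + X.q b)) = (-1) ^ (X.p a + X.q a) := by
        apply neg_one_pow_mod
        have e : (X.p b + X.q b) % 2 = (X.p a + X.q a) % 2 := by omega
        rw [Nat.mul_mod, e]
        rcases Nat.mod_two_eq_zero_or_one (X.p a + X.q a) with h | h <;> rw [h]
      rw [this]; ring
  rw [Finset.sum_congr rfl fun b _ => h1 b, ← Finset.mul_sum]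
  have h2 : ∑ b, X.η⁻¹ a b * X.η b a = (X.η⁻¹ * X.η) a a := by rw [Matrix.mul_apply]
  rw [h2, Matrix.nonsing_inv_mul _ X.η_nondeg, Matrix.one_apply_eq, mul_one]

end Vale.Agent.P269.H207
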