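import Vale.Agent.P269.H207.Support

/-! The vanishing theorem. -/

set_option autoImplicit false

namespace Vale.Agent.P269.H207

open Finset

variable {X : Target} {GW : ℕ → ℕ → List X.V → ℂ}

lemma wtL_eq (L : List X.V) : X.wtL L
    = (L.map fun x => (x.1 : ℤ) + X.p x.2).sum + (L.map fun x => (x.1 : ℤ) + X.q x.2).sum
      - 2 * L.length := by
  induction L with
  | nil => simp
  | cons x L ih =>
    simp only [wtL_cons, ih, List.map_cons, List.sum_cons, List.length_cons, Target.wt]
    push_cast
    ring

lemma parL_eq (L : List X.V) : (parL X.par L : ℤ)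
    = (L.map fun x => (x.1 : ℤ) + X.p x.2).sum + (L.map fun x => (x.1 : ℤ) + X.q x.2).sum
      - 2 * (L.map fun x => (x.1 : ℤ)).sum := by
  induction L with
  | nil => simp
  | cons x L ih =>
    simp only [parL_cons, Nat.cast_add, ih, List.map_cons, List.sum_cons, Target.par]
    ring

lemma GW_wt (h : IsGW X GW) (g d : ℕ) (L : List X.V) (hL : GW g d L ≠ 0) :
    X.wtL L + 2 * ((g : ℤ) - 1) * (X.D - 3) - 2 * X.c1 * d = 0 := by
  rw [wtL_eq, h.dim_p g d L hL, h.dim_q g d L hL]
  ring

lemma GW_par (h : IsGW X GW) (g d : ℕ) : HasPar X.par 0 (GW g d) := by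
  intro L hL
  by_contra hne
  apply hL
  have h1 := parL_eq (X := X) L
  rw [h.dim_p g d L hne, h.dim_q g d L hne] at h1
  have h2 : (parL X.par L : ℤ) = 2 * ((1 - g) * (X.D - 3) + X.c1 * d + L.length
      - (L.map fun x => (x.1 : ℤ)).sum) := by rw [h1]; ring
  omega

lemma potential_supp (h : IsGW X GW) : Supp X 0 (-1) (potential X GW) := by
  intro L d e he
  rw [cf_potential] at he
  split_ifs at he with h0
  · have := GW_wt h _ d L he
    rw [Int.toNat_of_nonneg h0] at this
    constructor
    · linear_combination this
    · omega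
  · exact absurd rfl he

lemma potential_ssym (h : IsGW X GW) : SSym X.par (potential X GW) := by
  intro K x y L
  apply Nov_ext
  intro d e
  rw [cf_neg_one_pow_mul, cf_potential, cf_potential]
  split_ifs
  · exact h.symm _ d K x y L
  · simp

lemma potential_par (h : IsGW X GW) : HasPar X.par 0 (potential X GW) := by
  intro L hL
  apply Nov_ext
  intro d e
  rw [cf_potential, cf_zero]
  split_ifs
  · exact GW_par h _ d L hL
  · rfl

lemma cf_eta' (x y : X.V) (d : ℕ) (e : ℤ) :
    cf d e (eta' X Nov hbi x y) = if e + 1 = 0 ∧ d = 0 then CK X ℂ 0 x y else 0 := by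
  rw [eta', cf_hbi_mul, CK, CK]
  split_ifs with h1 h2 h2
  · rw [cf_map, if_pos ⟨h2.2, h2.1⟩]
    rfl
  · rw [cf_map, if_neg (by tauto)]
  · simp
  · simp

lemma cf_quad (C : X.V → X.V → Nov) (d : ℕ) (e : ℤ) (L : List X.V) :
    cf d e (quad C L) = quad (fun x y => cf d e (C x y)) L := by
  match L with
  | [] => simp
  | [x] => simp
  | [x, y] => simp
  | x :: y :: z :: L => simp

lemma quad_ite (c : Prop) [Decidable c] (C : X.V → X.V → ℂ) (L : List X.V) :
    quad (fun x y => if c then C x y else 0) L = if c then quad C L else 0 := by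
  split_ifs
  · rfl
  · match L with
    | [] => simp
    | [x] => simp
    | [x, y] => simp
    | x :: y :: z :: L => simp

lemma potential_string (h : IsGW X GW) :
    dd (0, X.one) (potential X GW)
      = vf (AK X Nov 0) (potential X GW) + quad (eta' X Nov hbi) := by
  funext L
  apply Nov_ext
  intro d e
  rw [Pi.add_apply, cf_add, cf_vf_AK, dd_apply, cf_potential, cf_quad]
  simp only [cf_eta']
  rw [quad_ite, vf_low]
  by_cases h0 : 0 ≤ e + 1
  · rw [if_pos h0, h.string]
    have e1 : (fun L => cf d e (potential X GW L)) = GW (e + 1).toNat d := by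
      funext M
      rw [cf_potential, if_pos h0]
    rw [e1]
    congr 1
    have : ((e + 1).toNat = 0 ∧ d = 0) ↔ (e + 1 = 0 ∧ d = 0) := by omega
    simp only [this]
  · rw [if_neg h0]
    have e1 : (fun L => cf d e (potential X GW L)) = 0 := by
      funext M
      rw [cf_potential, if_neg h0]
      rfl
    rw [e1, if_neg (by omega), add_zero, ← vf_low, vf_zero]
    rfl

/-- `z_{-1} = 0` -/
lemma zN_zero (h : IsGW X GW) : zN X 0 (potential X GW) = 0 := by
  have h1 := potential_string h
  have e0 : AK X Nov 0 (1, X.one) = Finsupp.single (0, X.one) 1 := by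
    rw [AK_zero_apply]
    simp
  unfold zN zz
  rw [e0, dv_single, one_smul, h1, BK_zero, smul_zero, sec_zero_left, spl_zero_left, smul_zero]
  have e2 : cK X Nov 0 = 0 := by simp [cK]
  rw [e2]
  have e3 : (cst (0 : Nov) : List X.V → Nov) = 0 := by
    funext L
    cases L <;> rfl
  rw [e3]
  change -(vf (AK X Nov 0) (potential X GW) + quad (eta' X Nov hbi))
    + vf (AK X Nov 0) (potential X GW) + 0 + 0 + quad (eta' X Nov hbi) + 0 = 0
  abel

lemma low_vanish (n : ℕ) (f : List X.V → ℂ) (hf : ∀ M : List X.V, M.length = n → f M = 0)
    (L : List X.V) (hL : L.length = n) : low X L f = 0 := by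
  induction L generalizing f n with
  | nil => rfl
  | cons x L ih =>
    obtain ⟨m, a⟩ := x
    cases n with
    | zero => simp at hL
    | succ n =>
      have hL' : L.length = n := by simpa using hL
      rw [low]
      have h1 : (if m = 0 then 0 else f ((m - 1, a) :: L)) = 0 := by
        split_ifs
        · rfl
        · exact hf _ (by simp [hL'])
      rw [h1, zero_add]
      exact ih n _ (fun M hM => hf _ (by simp [hM])) hL'

lemma wt_neg (x : X.V) (hx : X.wt x < 0) : x = (0, X.one) := by
  obtain ⟨m, a⟩ := x
  simp only [Target.wt] at hx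
  have h1 := X.no_H1 a
  have hm : m = 0 := by omega
  have hp : X.p a = 0 := by omega
  have hq : X.q a = 0 := by omega
  rw [hm, X.eq_one a hp hq]

lemma exists_wt_neg (L : List X.V) (hL : X.wtL L < 0) : (0, X.one) ∈ L := by
  induction L with
  | nil => simp at hL
  | cons x L ih =>
    rw [wtL_cons] at hL
    by_cases hx : X.wt x < 0
    · rw [wt_neg x hx]; simp
    · exact List.mem_cons_of_mem _ (ih (by omega))

/-- A graded symmetric series of negative weight killed by the string operator vanishes. -/
lemma vanish (u : List X.V → ℂ) (hs : SSym X.par u) (w : ℤ) (hw : w < 0)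
    (hwt : ∀ L, u L ≠ 0 → X.wtL L = w)
    (hstr : ∀ L, u ((0, X.one) :: L) = low X L u) : u = 0 := by
  have key : ∀ n : ℕ, ∀ L : List X.V, L.length = n → u L = 0 := by
    intro n
    induction n with
    | zero =>
      intro L hL
      by_contra hne
      have h1 := hwt L hne
      have h2 : L = [] := List.length_eq_zero_iff.mp hL
      subst h2
      simp at h1
      omega
    | succ n ih =>
      intro L hL
      by_contra hne
      have h1 := hwt L hne
      have hmem := exists_wt_neg L (by omega)
      obtain ⟨K, M, rfl⟩ := List.append_of_mem hmem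
      rw [hs.cons_perm (by rw [par_one])] at hne
      rw [hstr] at hne
      exact hne (low_vanish n u ih _ (by simp at hL ⊢; omega))
  funext L
  exact key _ L rfl

/-- The Virasoro constraints in genus `g = e + 1` and degree `d` of nonpositive virtual dimension,
given the constraint `L_0`. -/
theorem zN_cf_vanish (h : IsGW X GW) (h1 : zN X 1 (potential X GW) = 0) (d : ℕ) (e : ℤ)
    (hs : X.c1 * d - e * (X.D - 3) ≤ 0) (K : ℕ) (L : List X.V) :
    cf d e (zN X K (potential X GW) L) = 0 := by
  have key : ∀ K : ℕ, (fun L => cf d e (zN X K (potential X GW) L)) = 0 := by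
    intro K
    induction K with
    | zero => rw [zN_zero h]; funext L; simp
    | succ K ih =>
      cases K with
      | zero =>
        funext L
        rw [zero_add, h1]
        simp
      | succ K =>
        have hd := zN_descent X (K + 1) (potential_ssym h) (potential_par h)
          (potential_string h)
        refine vanish _ ?_ (2 * (X.c1 * d - e * (X.D - 3)) - 2 * (K + 1)) (by omega) ?_ ?_
        · intro M x y N
          have := zN_ssym X (K + 1 + 1) (potential_ssym h) M x y N
          simp only [this, cf_neg_one_pow_mul]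
        · intro M hM
          have := (zN_supp (K + 1 + 1) (potential_supp h) M d e hM).1
          push_cast at this
          linear_combination this
        · intro M
          have h2 := congrFun hd M
          rw [dd_apply] at h2
          rw [h2, Pi.add_apply, cf_add, cf_vf_AK, vf_low]
          have h3 : cf d e (((((K + 1 : ℕ) : Nov) + 1) • zN X (K + 1) (potential X GW)) M)
              = 0 := by
            have e1 : (((K + 1 : ℕ) : Nov) + 1) = algebraMap ℂ Nov (((K + 1 : ℕ) : ℂ) + 1) := by
              simp
            rw [e1, Pi.smul_apply, smul_eq_mul, cf_map_mul]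
            have := congrFun ih M
            simp only [Pi.zero_apply] at this
            rw [this, mul_zero]
          rw [h3, add_zero]
  exact congrFun (key K) L

end Vale.Agent.P269.H207
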