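import Vale.Agent.P269.H207.Super

/-! Vector fields and second order operators on formal super power series. -/

set_option autoImplicit false

namespace Vale.Agent.P269.H207

variable {α R : Type*} [CommRing R] {par : α → ℕ}

/-! ### `dv` -/

lemma dv_apply (v : α →₀ R) (f : List α → R) (L : List α) :
    dv v f L = v.sum fun x c => c * f (x :: L) := rfl

lemma dv_eq_sum (v : α →₀ R) (f : List α → R) :
    dv v f = v.sum fun x c => c • dd x f := by
  funext L
  simp only [dv_apply, Finsupp.sum, Finset.sum_apply, Pi.smul_apply, dd_apply, smul_eq_mul]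

lemma dv_add_left (v w : α →₀ R) (f : List α → R) : dv (v + w) f = dv v f + dv w f := by
  classical
  funext L
  simp only [dv_apply, Pi.add_apply]
  exact Finsupp.sum_add_index' (fun _ => by simp) (fun _ _ _ => by ring)

lemma dv_smul_left (c : R) (v : α →₀ R) (f : List α → R) : dv (c • v) f = c • dv v f := by
  classical
  funext L
  simp only [dv_apply, Pi.smul_apply, smul_eq_mul]
  rw [Finsupp.sum_smul_index' (fun _ => by simp), Finsupp.mul_sum]
  exact Finsupp.sum_congr fun x _ => by simp only [smul_eq_mul]; ring

@[simp] lemma dv_zero_left (f : List α → R) : dv (0 : α →₀ R) f = 0 := by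
  funext L; simp [dv_apply]

lemma dv_neg_left (v : α →₀ R) (f : List α → R) : dv (-v) f = -dv v f := by
  have := dv_smul_left (-1 : R) v f
  simpa using this

lemma dv_sub_left (v w : α →₀ R) (f : List α → R) : dv (v - w) f = dv v f - dv w f := by
  rw [sub_eq_add_neg, dv_add_left, dv_neg_left, sub_eq_add_neg]

@[simp] lemma dv_single (x : α) (c : R) (f : List α → R) :
    dv (Finsupp.single x c) f = c • dd x f := by
  funext L
  simp [dv_apply]

lemma dv_add (v : α →₀ R) (f g : List α → R) : dv v (f + g) = dv v f + dv v g := by
  funext L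
  simp only [dv_apply, Pi.add_apply, Finsupp.sum, mul_add, Finset.sum_add_distrib]

lemma dv_smul (v : α →₀ R) (c : R) (f : List α → R) : dv v (c • f) = c • dv v f := by
  funext L
  simp only [dv_apply, Pi.smul_apply, smul_eq_mul, Finsupp.sum, Finset.mul_sum]
  exact Finset.sum_congr rfl fun x _ => by ring

@[simp] lemma dv_zero (v : α →₀ R) : dv v (0 : List α → R) = 0 := by
  funext L; simp [dv_apply]

lemma dv_neg (v : α →₀ R) (f : List α → R) : dv v (-f) = -dv v f := by
  have := dv_smul v (-1 : R) f
  simpa using this

/-! ### `vf` -/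

@[simp] lemma vf_nil (A : α → α →₀ R) (f : List α → R) : vf A f [] = 0 := rfl

lemma vf_cons (A : α → α →₀ R) (f : List α → R) (x : α) (L : List α) :
    vf A f (x :: L) = dv (A x) f L + vf A (dd x f) L := rfl

lemma dd_vf (A : α → α →₀ R) (f : List α → R) (x : α) :
    dd x (vf A f) = dv (A x) f + vf A (dd x f) := rfl

lemma vf_add (A : α → α →₀ R) (f g : List α → R) : vf A (f + g) = vf A f + vf A g := by
  funext L
  induction L generalizing f g with
  | nil => simp
  | cons x L ih =>
    simp only [vf_cons, Pi.add_apply, dv_add, dd_add, ih]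
    ring

lemma vf_smul (A : α → α →₀ R) (c : R) (f : List α → R) : vf A (c • f) = c • vf A f := by
  funext L
  induction L generalizing f with
  | nil => simp
  | cons x L ih =>
    simp only [vf_cons, Pi.smul_apply, dv_smul, dd_smul, ih, smul_eq_mul]
    ring

@[simp] lemma vf_zero (A : α → α →₀ R) : vf A (0 : List α → R) = 0 := by
  have := vf_smul A (0 : R) 0
  simpa using this

lemma vf_neg (A : α → α →₀ R) (f : List α → R) : vf A (-f) = -vf A f := by
  have := vf_smul A (-1 : R) f
  simpa using this

lemma vf_sum {ι : Type*} (s : Finset ι) (A : α → α →₀ R) (f : ι → List α → R) :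
    vf A (∑ i ∈ s, f i) = ∑ i ∈ s, vf A (f i) := by
  classical
  induction s using Finset.induction_on with
  | empty => simp
  | insert a s ha ih => rw [Finset.sum_insert ha, Finset.sum_insert ha, vf_add, ih]

lemma vf_add_left (A B : α → α →₀ R) (f : List α → R) :
    vf (fun x => A x + B x) f = vf A f + vf B f := by
  funext L
  induction L generalizing f with
  | nil => simp
  | cons x L ih =>
    simp only [vf_cons, Pi.add_apply, dv_add_left, ih]
    ring

lemma vf_smul_left (c : R) (A : α → α →₀ R) (f : List α → R) :
    vf (fun x => c • A x) f = c • vf A f := by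
  funext L
  induction L generalizing f with
  | nil => simp
  | cons x L ih =>
    simp only [vf_cons, Pi.smul_apply, dv_smul_left, ih, smul_eq_mul]
    ring

lemma vf_sub_left (A B : α → α →₀ R) (f : List α → R) :
    vf (fun x => A x - B x) f = vf A f - vf B f := by
  have h : (fun x => A x - B x) = fun x => A x + (-1 : R) • B x := by
    funext x; simp [sub_eq_add_neg]
  rw [h, vf_add_left, vf_smul_left]
  simp [sub_eq_add_neg]

lemma vf_neg_left (A : α → α →₀ R) (f : List α → R) :
    vf (fun x => -A x) f = -vf A f := by
  have h : (fun x => -A x) = fun x => (-1 : R) • A x := by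
    funext x; simp
  rw [h, vf_smul_left]
  simp

/-- apply the operator `A` to a vector -/
noncomputable def ap (A : α → α →₀ R) (v : α →₀ R) : α →₀ R := v.sum fun x c => c • A x

@[simp] lemma ap_single (A : α → α →₀ R) (x : α) (c : R) :
    ap A (Finsupp.single x c) = c • A x := by
  simp [ap]

lemma ap_add (A : α → α →₀ R) (v w : α →₀ R) : ap A (v + w) = ap A v + ap A w := by
  classical
  unfold ap
  exact Finsupp.sum_add_index' (fun _ => by simp) (fun _ _ _ => by rw [add_smul])

lemma ap_smul (A : α → α →₀ R) (c : R) (v : α →₀ R) : ap A (c • v) = c • ap A v := by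
  classical
  unfold ap
  rw [Finsupp.sum_smul_index' (fun _ => by simp), Finsupp.smul_sum]
  exact Finsupp.sum_congr fun x _ => by simp [mul_smul]

/-- `∂_v (D_A f) = ∂_{A v} f + D_A (∂_v f)` -/
lemma dv_vf (A : α → α →₀ R) (f : List α → R) (v : α →₀ R) :
    dv v (vf A f) = dv (ap A v) f + vf A (dv v f) := by
  classical
  induction v using Finsupp.induction_linear with
  | zero => simp [ap]
  | add v w hv hw =>
    rw [dv_add_left, dv_add_left, ap_add, dv_add_left, vf_add, hv, hw]
    abel
  | single x c =>
    rw [dv_single, dv_single, ap_single, dv_smul_left, vf_smul, dd_vf, smul_add]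

/-- commutator of linear vector fields -/
lemma vf_comm (A B : α → α →₀ R) (f : List α → R) :
    vf A (vf B f) - vf B (vf A f) = vf (fun x => ap B (A x) - ap A (B x)) f := by
  funext L
  induction L generalizing f with
  | nil => simp
  | cons x L ih =>
    simp only [Pi.sub_apply, vf_cons, dv_vf, dd_vf, vf_add, Pi.add_apply, dv_sub_left] at *
    have := ih (dd x f)
    linear_combination this

/-- Leibniz rule for `dv` in an even direction twisted: general version -/
lemma dv_smul2 (v : α →₀ R) (n : ℕ) (hv : ∀ y ∈ v.support, par y % 2 = n % 2)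
    (f g : List α → R) :
    dv v (smul2 par f g) = smul2 par (dv v f) g + smul2 par (tw par n f) (dv v g) := by
  classical
  simp only [dv_eq_sum]
  have : ∀ x ∈ v.support, (v x) • dd x (smul2 par f g)
      = smul2 par ((v x) • dd x f) g + smul2 par (tw par n f) ((v x) • dd x g) := by
    intro x hx
    rw [dd_smul2, smul_add, smul2_smul_left, smul2_smul_right, tw_congr (hv x hx)]
  unfold Finsupp.sum
  rw [Finset.sum_congr rfl this, Finset.sum_add_distrib]
  congr 1
  · have hs : ∀ s : Finset α, ∑ x ∈ s, smul2 par ((v x) • dd x f) g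
        = smul2 par (∑ x ∈ s, (v x) • dd x f) g := by
      intro s
      induction s using Finset.induction_on with
      | empty => simp
      | insert a s ha ih => rw [Finset.sum_insert ha, Finset.sum_insert ha, smul2_add_left, ih]
    exact hs _
  · have hs : ∀ s : Finset α, ∑ x ∈ s, smul2 par (tw par n f) ((v x) • dd x g)
        = smul2 par (tw par n f) (∑ x ∈ s, (v x) • dd x g) := by
      intro s
      induction s using Finset.induction_on with
      | empty => simp
      | insert a s ha ih => rw [Finset.sum_insert ha, Finset.sum_insert ha, smul2_add_right, ih]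
    exact hs _

lemma tw_dv (n : ℕ) (v : α →₀ R) (f : List α → R) (m : ℕ)
    (hv : ∀ y ∈ v.support, par y % 2 = m % 2) :
    tw par n (dv v f) = ((-1 : R) ^ (n * m)) • dv v (tw par n f) := by
  funext L
  simp only [tw_apply, dv_apply, Pi.smul_apply, smul_eq_mul, parL_cons, Finsupp.sum,
    Finset.mul_sum]
  refine Finset.sum_congr rfl fun x hx => ?_
  have : ((-1 : R)) ^ (n * (par x + parL par L))
      = (-1) ^ (n * m) * (-1) ^ (n * parL par L) := by
    rw [← pow_add]
    apply neg_one_pow_mod
    have := hv x hx
    rw [← mul_add, Nat.mul_mod, Nat.mul_mod n (m + _)]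
    congr 2
    omega
  rw [this]
  have h2 : ((-1 : R)) ^ (n * m) * (-1) ^ (n * m) = 1 := by
    rw [← pow_add, neg_one_pow_mod _ 0 (by omega)]
    simp
  linear_combination (-(v x) * (-1) ^ (n * parL par L) * f (x :: L)) * h2

lemma tw_vf {A : α → α →₀ R} (hA : EvenOp par A) (n : ℕ) (f : List α → R) :
    tw par n (vf A f) = vf A (tw par n f) := by
  funext L
  induction L generalizing f with
  | nil => simp
  | cons x L ih =>
    have h1 := congrFun (tw_dv (par := par) n (A x) f (par x) (hA x)) L
    have h2 : ((-1 : R)) ^ (n * par x) * (-1) ^ (n * par x) = 1 := by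
      rw [← pow_add, neg_one_pow_mod _ 0 (by omega)]
      simp
    have h3 := ih (dd x f)
    simp only [tw_apply, vf_cons, parL_cons, dd_tw, vf_smul, Pi.smul_apply, smul_eq_mul,
      mul_add n, pow_add] at *
    linear_combination ((-1) ^ (n * par x)) * h1 + ((-1) ^ (n * par x)) * h3
      + dv (A x) (tw par n f) L * h2

/-- Leibniz rule for even vector fields -/
lemma vf_smul2 {A : α → α →₀ R} (hA : EvenOp par A) (f g : List α → R) :
    vf A (smul2 par f g) = smul2 par (vf A f) g + smul2 par f (vf A g) := by
  funext L
  induction L generalizing f g with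
  | nil => simp
  | cons x L ih =>
    simp only [vf_cons, Pi.add_apply, dd_smul2, vf_add, ih,
      dv_smul2 (A x) (par x) (hA x), smul2_cons, dd_vf, smul2_add_left, smul2_add_right,
      tw_vf hA]
    ring

end Vale.Agent.P269.H207
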