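import Vale.Agent.P269.H207.TargetLemmas
import Vale.Agent.P269.H207.Descent

/-! The Virasoro operators satisfy the relations `R1`-`R6` of the descent lemma. -/

set_option autoImplicit false

namespace Vale.Agent.P269.H207

open Finset

section Lifting

variable {α R : Type*} [CommRing R] {par : α → ℕ}

@[simp] lemma ap_zero (A : α → α →₀ R) : ap A 0 = 0 := by simp [ap]

lemma ap_finsetSum {ι : Type*} (s : Finset ι) (A : α → α →₀ R) (v : ι → α →₀ R) :
    ap A (∑ i ∈ s, v i) = ∑ i ∈ s, ap A (v i) := by
  classical
  induction s using Finset.induction_on with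
  | empty => simp
  | insert a s ha ih => rw [Finset.sum_insert ha, Finset.sum_insert ha, ap_add, ih]

lemma ctL_eq (β : α × α →₀ R) (η : α → α → R) (z : α) :
    ctL par β η z
      = β.sum fun p c => Finsupp.single p.2 (c * ((-1) ^ (par p.2 * par z) * η p.1 z)) := rfl

lemma ctR_eq (β : α × α →₀ R) (η : α → α → R) (z : α) :
    ctR β η z = β.sum fun p c => Finsupp.single p.1 (c * η p.2 z) := rfl

lemma ctL_add (β γ : α × α →₀ R) (η : α → α → R) (z : α) :
    ctL par (β + γ) η z = ctL par β η z + ctL par γ η z := by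
  classical
  simp only [ctL_eq]
  exact Finsupp.sum_add_index' (fun _ => by simp) (fun _ _ _ => by
    rw [add_mul, Finsupp.single_add])

lemma ctR_add (β γ : α × α →₀ R) (η : α → α → R) (z : α) :
    ctR (β + γ) η z = ctR β η z + ctR γ η z := by
  classical
  simp only [ctR_eq]
  exact Finsupp.sum_add_index' (fun _ => by simp) (fun _ _ _ => by
    rw [add_mul, Finsupp.single_add])

@[simp] lemma ctL_zero (η : α → α → R) (z : α) : ctL par 0 η z = 0 := by
  simp [ctL_eq]

@[simp] lemma ctR_zero (η : α → α → R) (z : α) : ctR 0 η z = 0 := by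
  simp [ctR_eq]

lemma ctL_finsetSum {ι : Type*} (s : Finset ι) (β : ι → α × α →₀ R) (η : α → α → R) (z : α) :
    ctL par (∑ i ∈ s, β i) η z = ∑ i ∈ s, ctL par (β i) η z := by
  classical
  induction s using Finset.induction_on with
  | empty => simp
  | insert a s ha ih => rw [Finset.sum_insert ha, Finset.sum_insert ha, ctL_add, ih]

lemma ctR_finsetSum {ι : Type*} (s : Finset ι) (β : ι → α × α →₀ R) (η : α → α → R) (z : α) :
    ctR (∑ i ∈ s, β i) η z = ∑ i ∈ s, ctR (β i) η z := by
  classical
  induction s using Finset.induction_on with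
  | empty => simp
  | insert a s ha ih => rw [Finset.sum_insert ha, Finset.sum_insert ha, ctR_add, ih]

@[simp] lemma ctL_single (p : α × α) (c : R) (η : α → α → R) (z : α) :
    ctL par (Finsupp.single p c) η z
      = Finsupp.single p.2 (c * ((-1) ^ (par p.2 * par z) * η p.1 z)) := by
  rw [ctL_eq, Finsupp.sum_single_index (by simp)]

@[simp] lemma ctR_single (p : α × α) (c : R) (η : α → α → R) (z : α) :
    ctR (Finsupp.single p c) η z = Finsupp.single p.1 (c * η p.2 z) := by
  rw [ctR_eq, Finsupp.sum_single_index (by simp)]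

lemma lact_finsetSum {ι : Type*} (s : Finset ι) (A : α → α →₀ R) (β : ι → α × α →₀ R) :
    lact A (∑ i ∈ s, β i) = ∑ i ∈ s, lact A (β i) := by
  classical
  induction s using Finset.induction_on with
  | empty => simp
  | insert a s ha ih => rw [Finset.sum_insert ha, Finset.sum_insert ha, lact_add, ih]

lemma ract_finsetSum {ι : Type*} (s : Finset ι) (A : α → α →₀ R) (β : ι → α × α →₀ R) :
    ract A (∑ i ∈ s, β i) = ∑ i ∈ s, ract A (β i) := by
  classical
  induction s using Finset.induction_on with
  | empty => simp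
  | insert a s ha ih => rw [Finset.sum_insert ha, Finset.sum_insert ha, ract_add, ih]

lemma ctL_smul (c : R) (β : α × α →₀ R) (η : α → α → R) (z : α) :
    ctL par (c • β) η z = c • ctL par β η z := by
  classical
  induction β using Finsupp.induction_linear with
  | zero => simp
  | add v w hv hw => rw [smul_add, ctL_add, hv, hw, ctL_add, smul_add]
  | single p d =>
    rw [Finsupp.smul_single, ctL_single, ctL_single, Finsupp.smul_single]
    simp [mul_assoc]

lemma ctR_smul (c : R) (β : α × α →₀ R) (η : α → α → R) (z : α) :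
    ctR (c • β) η z = c • ctR β η z := by
  classical
  induction β using Finsupp.induction_linear with
  | zero => simp
  | add v w hv hw => rw [smul_add, ctR_add, hv, hw, ctR_add, smul_add]
  | single p d =>
    rw [Finsupp.smul_single, ctR_single, ctR_single, Finsupp.smul_single]
    simp [mul_assoc]

lemma lact_smul (A : α → α →₀ R) (c : R) (β : α × α →₀ R) :
    lact A (c • β) = c • lact A β := by
  classical
  induction β using Finsupp.induction_linear with
  | zero => simp
  | add v w hv hw => rw [smul_add, lact_add, hv, hw, lact_add, smul_add]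
  | single p d =>
    rw [Finsupp.smul_single, lact_single, lact_single]
    simp only [Finsupp.sum, Finset.smul_sum, Finsupp.smul_single, smul_eq_mul, mul_assoc]

lemma ract_smul (A : α → α →₀ R) (c : R) (β : α × α →₀ R) :
    ract A (c • β) = c • ract A β := by
  classical
  induction β using Finsupp.induction_linear with
  | zero => simp
  | add v w hv hw => rw [smul_add, ract_add, hv, hw, ract_add, smul_add]
  | single p d =>
    rw [Finsupp.smul_single, ract_single, ract_single]
    simp only [Finsupp.sum, Finset.smul_sum, Finsupp.smul_single, smul_eq_mul, mul_assoc]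

/-- pairing a vector with a function -/
lemma fsum_finsetSum {ι : Type*} (s : Finset ι) (v : ι → α →₀ R) (η : α → R) :
    ((∑ i ∈ s, v i).sum fun w a => a * η w) = ∑ i ∈ s, (v i).sum fun w a => a * η w := by
  classical
  exact (Finsupp.sum_finsetSum_index (fun _ => by simp) (fun _ _ _ => by ring)).symm

lemma fsum_single (x : α) (c : R) (η : α → R) :
    ((Finsupp.single x c).sum fun w a => a * η w) = c * η x := by
  rw [Finsupp.sum_single_index (by simp)]

end Lifting

variable (X : Target) {R' : Type*} [CommRing R'] [Algebra ℂ R']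

lemma AK_zero_apply (x : X.V) :
    AK X R' 0 x = if x.1 = 0 then 0 else Finsupp.single (x.1 - 1, x.2) 1 := by
  unfold AK
  rw [sum_range_one]
  by_cases hx : x.1 = 0
  · simp [hx]
  · rw [if_neg hx]
    have h1 : 0 + 1 ≤ x.1 + 0 := by omega
    simp only [h1, if_true, pow_zero]
    rw [Finset.sum_eq_single x.2]
    · simp [br]
    · intro b _ hb
      rw [Matrix.one_apply_ne (Ne.symm hb)]
      simp
    · simp

lemma ap_S_single (n : ℕ) (b : X.ι) (c : R') :
    ap (AK X R' 0) (Finsupp.single (n, b) c)
      = if n = 0 then 0 else Finsupp.single (n - 1, b) c := by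
  rw [ap_single, AK_zero_apply]
  by_cases hn : n = 0
  · simp [hn]
  · simp [hn, Finsupp.smul_single]

lemma AK_even (K : ℕ) : EvenOp X.par (AK X R' K) := by
  classical
  intro x y hy
  unfold AK at hy
  obtain ⟨i, -, hi⟩ := Finset.mem_biUnion.mp (Finsupp.support_finsetSum hy)
  obtain ⟨b, -, hb⟩ := Finset.mem_biUnion.mp (Finsupp.support_finsetSum hi)
  split_ifs at hb with hc
  · have h1 := Finsupp.support_single_subset hb
    rw [Finset.mem_singleton] at h1
    have h2 : (X.R ^ i) x.2 b ≠ 0 := by
      intro h0
      rw [h0, mul_zero, map_zero, Finsupp.single_zero] at hb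
      simp at hb
    have h3 := X.R_pow_type i x.2 b h2
    subst h1
    simp only [Target.par]
    omega
  · simp at hb

lemma comm_succ (K m : ℕ) (a : X.ι) :
    ap (AK X R' 0) (AK X R' (K + 1) (m + 1, a))
      = AK X R' (K + 1) (m, a) + ((K : R') + 1) • AK X R' K (m + 1, a) := by
  have e1 : AK X R' K (m + 1, a) = ∑ i ∈ range (K + 1 + 1), ∑ b : X.ι,
      if i ≤ m + K then Finsupp.single (m + K - i, b)
        (algebraMap ℂ R' (br K i (X.b a + (m + 1 : ℕ)) * (X.R ^ i) a b)) else 0 := by
    rw [sum_range_succ]
    have hz : (∑ b : X.ι, if K + 1 ≤ m + K then Finsupp.single (m + K - (K + 1), b)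
        (algebraMap ℂ R' (br K (K + 1) (X.b a + (m + 1 : ℕ)) * (X.R ^ (K + 1)) a b)) else 0)
        = (0 : X.V →₀ R') := by
      refine Finset.sum_eq_zero fun b _ => ?_
      rw [br_gt (Nat.lt_succ_self K)]
      simp
    rw [hz, add_zero]
    unfold AK
    refine Finset.sum_congr rfl fun i _ => Finset.sum_congr rfl fun b _ => ?_
    have hc : i + 1 ≤ m + 1 + K ↔ i ≤ m + K := by omega
    have hn : m + 1 + K - 1 - i = m + K - i := by omega
    simp only [hc, hn]
  rw [e1]
  unfold AK
  rw [ap_finsetSum, Finset.smul_sum, ← Finset.sum_add_distrib]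
  refine Finset.sum_congr rfl fun i _ => ?_
  rw [ap_finsetSum, Finset.smul_sum, ← Finset.sum_add_distrib]
  refine Finset.sum_congr rfl fun b _ => ?_
  by_cases hc : i ≤ m + K
  · have h1 : i + 1 ≤ m + 1 + (K + 1) := by omega
    have h2 : i + 1 ≤ m + (K + 1) := by omega
    have hS := ap_S_single (R' := R') X (m + 1 + (K + 1) - 1 - i) b
      (algebraMap ℂ R' (br (K + 1) i (X.b a + (m + 1 : ℕ)) * (X.R ^ i) a b))
    rw [if_neg (by omega)] at hS
    simp only [h1, h2, hc, if_true]
    unfold AK at hS
    rw [hS, Finsupp.smul_single]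
    have hn1 : m + 1 + (K + 1) - 1 - i - 1 = m + K - i := by omega
    have hn2 : m + (K + 1) - 1 - i = m + K - i := by omega
    rw [hn1, hn2, ← Finsupp.single_add]
    congr 1
    have hb := br_diff K i (X.b a + (m + 1 : ℕ))
    have hx : X.b a + ((m + 1 : ℕ) : ℂ) - 1 = X.b a + m := by push_cast; ring
    rw [hx] at hb
    have : br (K + 1) i (X.b a + (m + 1 : ℕ)) * (X.R ^ i) a b
        = br (K + 1) i (X.b a + m) * (X.R ^ i) a b
          + ((K : ℂ) + 1) * (br K i (X.b a + (m + 1 : ℕ)) * (X.R ^ i) a b) := by
      linear_combination (X.R ^ i) a b * hb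
    rw [this, map_add, map_mul (algebraMap ℂ R') ((K : ℂ) + 1)]
    simp
  · by_cases hd : i = m + K + 1
    · subst hd
      have h1 : m + K + 1 + 1 ≤ m + 1 + (K + 1) := by omega
      have h2 : ¬ (m + K + 1 + 1 ≤ m + (K + 1)) := by omega
      have hS := ap_S_single (R' := R') X (m + 1 + (K + 1) - 1 - (m + K + 1)) b
        (algebraMap ℂ R' (br (K + 1) (m + K + 1) (X.b a + (m + 1 : ℕ))
          * (X.R ^ (m + K + 1)) a b))
      rw [if_pos (by omega)] at hS
      simp only [h1, h2, hc, if_true, if_false]
      unfold AK at hS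
      rw [hS]
      simp
    · have h1 : ¬ (i + 1 ≤ m + 1 + (K + 1)) := by omega
      have h2 : ¬ (i + 1 ≤ m + (K + 1)) := by omega
      simp [h1, h2, hc]

end Vale.Agent.P269.H207
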