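import Vale.Agent.P269.H207.VirOps

/-! The relations `R1`-`R6`, continued. -/

set_option autoImplicit false

namespace Vale.Agent.P269.H207

open Finset

variable (X : Target) {R' : Type*} [CommRing R'] [Algebra ℂ R']

/-- the boundary term of `[S, A_k]` at `τ_0(φ_a)` -/
noncomputable def bdry (R' : Type*) [CommRing R'] [Algebra ℂ R'] (K : ℕ) (a : X.ι) :
    X.V →₀ R' :=
  ∑ i ∈ range K, ∑ b : X.ι, Finsupp.single (K - 1 - i, b)
    (algebraMap ℂ R' (br (K + 1) i (X.b a - 1) * (X.R ^ i) a b))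

lemma comm_zero (K : ℕ) (a : X.ι) :
    ap (AK X R' 0) (AK X R' (K + 1) (0, a))
      = ((K : R') + 1) • AK X R' K (0, a) + bdry X R' K a := by
  have e1 : AK X R' K (0, a) = ∑ i ∈ range K, ∑ b : X.ι,
      Finsupp.single (K - 1 - i, b)
        (algebraMap ℂ R' (br K i (X.b a) * (X.R ^ i) a b)) := by
    unfold AK
    rw [sum_range_succ]
    have hz : (∑ b : X.ι, if K + 1 ≤ 0 + K then Finsupp.single (0 + K - 1 - K, b)
        (algebraMap ℂ R' (br K K (X.b a + (0 : ℕ)) * (X.R ^ K) a b)) else 0)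
        = (0 : X.V →₀ R') := by
      refine Finset.sum_eq_zero fun b _ => ?_
      rw [if_neg (by omega)]
    rw [hz, add_zero]
    refine Finset.sum_congr rfl fun i hi => Finset.sum_congr rfl fun b _ => ?_
    have hi' : i < K := by simpa using hi
    rw [if_pos (by omega)]
    simp
  have e2 : ap (AK X R' 0) (AK X R' (K + 1) (0, a)) = ∑ i ∈ range K, ∑ b : X.ι,
      Finsupp.single (K - 1 - i, b)
        (algebraMap ℂ R' (br (K + 1) i (X.b a) * (X.R ^ i) a b)) := by
    rw [show AK X R' (K + 1) (0, a) = ∑ i ∈ range (K + 1 + 1), ∑ b : X.ι,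
      if i + 1 ≤ 0 + (K + 1) then Finsupp.single (0 + (K + 1) - 1 - i, b)
        (algebraMap ℂ R' (br (K + 1) i (X.b a + (0 : ℕ)) * (X.R ^ i) a b)) else 0 from rfl]
    rw [sum_range_succ, sum_range_succ, ap_add, ap_add]
    have hz1 : (∑ b : X.ι, if K + 1 + 1 ≤ 0 + (K + 1) then
        Finsupp.single (0 + (K + 1) - 1 - (K + 1), b)
        (algebraMap ℂ R' (br (K + 1) (K + 1) (X.b a + (0 : ℕ)) * (X.R ^ (K + 1)) a b)) else 0)
        = (0 : X.V →₀ R') := by
      refine Finset.sum_eq_zero fun b _ => ?_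
      rw [if_neg (by omega)]
    have hz2 : ap (AK X R' 0) (∑ b : X.ι, if K + 1 ≤ 0 + (K + 1) then
        Finsupp.single (0 + (K + 1) - 1 - K, b)
        (algebraMap ℂ R' (br (K + 1) K (X.b a + (0 : ℕ)) * (X.R ^ K) a b)) else 0)
        = (0 : X.V →₀ R') := by
      rw [ap_finsetSum]
      refine Finset.sum_eq_zero fun b _ => ?_
      rw [if_pos (by omega), ap_S_single, if_pos (by omega)]
    rw [hz1, hz2, ap_zero, add_zero, add_zero, ap_finsetSum]
    refine Finset.sum_congr rfl fun i hi => ?_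
    rw [ap_finsetSum]
    refine Finset.sum_congr rfl fun b _ => ?_
    have hi' : i < K := by simpa using hi
    rw [if_pos (by omega), ap_S_single, if_neg (by omega)]
    have hn : 0 + (K + 1) - 1 - i - 1 = K - 1 - i := by omega
    rw [hn]
    simp
  rw [e1, e2, bdry, Finset.smul_sum, ← Finset.sum_add_distrib]
  refine Finset.sum_congr rfl fun i _ => ?_
  rw [Finset.smul_sum, ← Finset.sum_add_distrib]
  refine Finset.sum_congr rfl fun b _ => ?_
  rw [Finsupp.smul_single, ← Finsupp.single_add]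
  congr 1
  have hb := br_diff K i (X.b a)
  have : br (K + 1) i (X.b a) * (X.R ^ i) a b
      = ((K : ℂ) + 1) * (br K i (X.b a) * (X.R ^ i) a b)
        + br (K + 1) i (X.b a - 1) * (X.R ^ i) a b := by
    linear_combination (X.R ^ i) a b * hb
  rw [this, map_add, map_mul (algebraMap ℂ R') ((K : ℂ) + 1)]
  simp

/-- `1/ħ` times the Poincaré pairing at level zero -/
noncomputable def eta' (R' : Type*) [CommRing R'] [Algebra ℂ R'] (hi : R') (x y : X.V) : R' :=
  hi * CK X R' 0 x y

lemma eta'_zero (hi : R') (a b : X.ι) :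
    eta' X R' hi (0, a) (0, b) = hi * algebraMap ℂ R' (X.η a b) := by
  simp [eta', CK]

lemma eta'_left (hi : R') (m : ℕ) (hm : m ≠ 0) (a : X.ι) (y : X.V) :
    eta' X R' hi (m, a) y = 0 := by
  simp [eta', CK, hm]

lemma eta'_right (hi : R') (x : X.V) (m : ℕ) (hm : m ≠ 0) (a : X.ι) :
    eta' X R' hi x (m, a) = 0 := by
  simp [eta', CK, hm]

/-- coefficients of `BK` -/
noncomputable def bc (K i m : ℕ) (a b : X.ι) : ℂ :=
  1 / 2 * (-1) ^ (m + 1) * br K i (-X.b a - m) * (X.η⁻¹ * X.R ^ i) a b

lemma BK_succ (K : ℕ) : BK X R' (K + 1)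
    = ∑ i ∈ range K, ∑ m ∈ range (K - i), ∑ a : X.ι, ∑ b : X.ι,
      Finsupp.single ((m, a), (K - 1 - i - m, b)) (algebraMap ℂ R' (bc X (K + 1) i m a b)) := by
  unfold BK
  rw [sum_range_succ]
  have hz : ∑ m ∈ range (K + 1 - 1 - K), ∑ a : X.ι, ∑ b : X.ι,
      Finsupp.single ((m, a), (K + 1 - 2 - K - m, b))
        (algebraMap ℂ R' (1 / 2 * (-1) ^ (m + 1) * br (K + 1) K (-X.b a - m)
        * (X.η⁻¹ * X.R ^ K) a b)) = (0 : X.V × X.V →₀ R') := by
    have : K + 1 - 1 - K = 0 := by omega
    rw [this, range_zero, sum_empty]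
  rw [hz, add_zero]
  refine Finset.sum_congr rfl fun i hi => ?_
  have h1 : K + 1 - 1 - i = K - i := by omega
  rw [h1]
  refine Finset.sum_congr rfl fun m hm => Finset.sum_congr rfl fun a _ =>
    Finset.sum_congr rfl fun b _ => ?_
  have h2 : K + 1 - 2 - i - m = K - 1 - i - m := by omega
  rw [h2, bc]

lemma ctR_BK (K : ℕ) (hi : R') (c : X.ι) :
    ctR (BK X R' (K + 1)) (eta' X R' hi) (0, c)
      = (-hi) • ∑ i ∈ range K, ∑ b : X.ι, Finsupp.single (K - 1 - i, b)
        (algebraMap ℂ R' (1 / 2 * (br (K + 1) i (X.b c - 1) * (X.R ^ i) c b))) := by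
  rw [BK_succ, ctR_finsetSum, Finset.smul_sum]
  refine Finset.sum_congr rfl fun i hi' => ?_
  have hi'' : i < K := by simpa using hi'
  rw [ctR_finsetSum, Finset.sum_eq_single (K - 1 - i)]
  · rw [ctR_finsetSum, Finset.smul_sum]
    refine Finset.sum_congr rfl fun a _ => ?_
    rw [ctR_finsetSum]
    have e0 : K - 1 - i - (K - 1 - i) = 0 := by omega
    simp only [ctR_single, e0, eta'_zero]
    have key : ∑ b : X.ι, bc X (K + 1) i (K - 1 - i) a b * X.η b c
        = -(1 / 2 * (br (K + 1) i (X.b c - 1) * (X.R ^ i) c a)) := by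
      have h1 : ∑ b : X.ι, bc X (K + 1) i (K - 1 - i) a b * X.η b c
          = 1 / 2 * (-1) ^ (K - 1 - i + 1) * br (K + 1) i (-X.b a - (K - 1 - i : ℕ))
            * (X.η⁻¹ * X.R ^ i * X.η) a c := by
        rw [Matrix.mul_apply, Finset.mul_sum]
        refine Finset.sum_congr rfl fun b _ => ?_
        rw [bc]
        ring
      rw [h1, X.inv_R_pow_eta, Matrix.transpose_apply]
      by_cases h0 : (X.R ^ i) c a = 0
      · rw [h0]; ring
      · have ht := (X.R_pow_type i c a h0).1
        have hx : (-X.b a - ((K - 1 - i : ℕ) : ℂ)) = -(X.b c - 1) - (((K + 1 : ℕ) : ℂ) - 1) := by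
          rw [Target.b, Target.b, ht]
          have : ((K - 1 - i : ℕ) : ℂ) = K - 1 - i := by
            rw [Nat.sub_sub, Nat.cast_sub (by omega)]
            push_cast; ring
          rw [this]
          push_cast
          ring
        rw [hx, br_refl]
        have hs : ((-1 : ℂ)) ^ (K - 1 - i + 1) * (-1) ^ (K + 1 + i) = -1 := by
          rw [← pow_add, neg_one_pow_mod _ 1 (by omega), pow_one]
        linear_combination (1 / 2 * br (K + 1) i (X.b c - 1) * (X.R ^ i) c a) * hs
    rw [← Finsupp.single_finsetSum, Finsupp.smul_single]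
    congr 1
    have h2 : ∑ b : X.ι, algebraMap ℂ R' (bc X (K + 1) i (K - 1 - i) a b)
          * (hi * algebraMap ℂ R' (X.η b c))
        = hi * algebraMap ℂ R' (∑ b : X.ι, bc X (K + 1) i (K - 1 - i) a b * X.η b c) := by
      rw [map_sum, Finset.mul_sum]
      refine Finset.sum_congr rfl fun b _ => ?_
      rw [map_mul]
      ring
    rw [h2, key, map_neg, smul_eq_mul]
    ring
  · intro m hm hne
    have hm' : m < K - i := by simpa using hm
    rw [ctR_finsetSum]
    refine Finset.sum_eq_zero fun a _ => ?_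
    rw [ctR_finsetSum]
    refine Finset.sum_eq_zero fun b _ => ?_
    rw [ctR_single, eta'_left X hi _ (by omega)]
    simp
  · intro h
    exact absurd (Finset.mem_range.mpr (by omega)) h

lemma ctL_BK (K : ℕ) (hi : R') (c : X.ι) :
    ctL X.par (BK X R' (K + 1)) (eta' X R' hi) (0, c)
      = (-hi) • ∑ i ∈ range K, ∑ b : X.ι, Finsupp.single (K - 1 - i, b)
        (algebraMap ℂ R' (1 / 2 * (br (K + 1) i (X.b c - 1) * (X.R ^ i) c b))) := by
  rw [BK_succ, ctL_finsetSum, Finset.smul_sum]
  refine Finset.sum_congr rfl fun i hi' => ?_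
  have hi'' : i < K := by simpa using hi'
  rw [ctL_finsetSum, Finset.sum_eq_single 0]
  · rw [ctL_finsetSum]
    simp only [ctL_finsetSum, ctL_single, eta'_zero]
    rw [Finset.sum_comm, Finset.smul_sum]
    refine Finset.sum_congr rfl fun b _ => ?_
    have e0 : K - 1 - i - 0 = K - 1 - i := by omega
    rw [e0]
    have key : ∑ a : X.ι, bc X (K + 1) i 0 a b
          * ((-1) ^ ((X.p b + X.q b) * (X.p c + X.q c)) * X.η a c)
        = -(1 / 2 * (br (K + 1) i (X.b c - 1) * (X.R ^ i) c b)) := by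
      have h1 : ∀ a : X.ι, bc X (K + 1) i 0 a b
          * ((-1) ^ ((X.p b + X.q b) * (X.p c + X.q c)) * X.η a c)
          = -(1 / 2 * br (K + 1) i (X.b c - 1)) * (X.η c a * (X.η⁻¹ * X.R ^ i) a b) := by
        intro a
        by_cases hac : X.η a c = 0
        · have : X.η c a = 0 := by rw [X.η_symm c a, hac, mul_zero]
          rw [hac, this]; ring
        · by_cases hab : (X.η⁻¹ * X.R ^ i) a b = 0
          · rw [bc, hab]; ring
          · have t1 := X.η_type a c hac
            have t2 := X.up_type i a b hab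
            have hs : ((-1 : ℂ)) ^ ((X.p b + X.q b) * (X.p c + X.q c)) * X.η a c = X.η c a := by
              rw [X.η_symm c a]
              congr 1
              apply neg_one_pow_mod
              rw [mul_comm (X.p c + X.q c), Nat.mul_mod, Nat.mul_mod (X.p a + X.q a)]
              congr 2
              omega
            rw [hs, bc]
            have hx : (-X.b a - ((0 : ℕ) : ℂ)) = X.b c - 1 := by
              rw [Target.b, Target.b]
              have : (X.D : ℂ) = X.p a + X.p c := by
                rw [← Nat.cast_add, t1.1]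
              rw [this]
              push_cast
              ring
            rw [hx]
            ring
      rw [Finset.sum_congr rfl fun a _ => h1 a, ← Finset.mul_sum]
      have h2 : ∑ a : X.ι, X.η c a * (X.η⁻¹ * X.R ^ i) a b = (X.η * (X.η⁻¹ * X.R ^ i)) c b := by
        rw [Matrix.mul_apply]
      rw [h2, X.eta_inv_R_pow]
      ring
    rw [← Finsupp.single_finsetSum, Finsupp.smul_single]
    congr 1
    have h2 : ∑ a : X.ι, algebraMap ℂ R' (bc X (K + 1) i 0 a b)
          * ((-1) ^ (X.par (K - 1 - i, b) * X.par (0, c)) * (hi * algebraMap ℂ R' (X.η a c)))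
        = hi * algebraMap ℂ R' (∑ a : X.ι, bc X (K + 1) i 0 a b
          * ((-1) ^ ((X.p b + X.q b) * (X.p c + X.q c)) * X.η a c)) := by
      rw [map_sum, Finset.mul_sum]
      refine Finset.sum_congr rfl fun a _ => ?_
      simp only [Target.par, map_mul, map_pow, map_neg, map_one]
      ring
    rw [h2, key, map_neg, smul_eq_mul]
    ring
  · intro m hm hne
    rw [ctL_finsetSum]
    refine Finset.sum_eq_zero fun a _ => ?_
    rw [ctL_finsetSum]
    refine Finset.sum_eq_zero fun b _ => ?_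
    rw [ctL_single, eta'_left X hi _ hne]
    simp
  · intro h
    exact absurd (Finset.mem_range.mpr (by omega)) h

lemma ct_succ (β : X.V × X.V →₀ R') (hi : R') (m : ℕ) (c : X.ι) :
    ctL X.par β (eta' X R' hi) (m + 1, c) + ctR β (eta' X R' hi) (m + 1, c) = 0 := by
  unfold ctL ctR
  rw [Finset.sum_eq_zero, Finset.sum_eq_zero, add_zero]
  · intro p _
    rw [eta'_right X hi _ _ (by omega)]
    simp
  · intro p _
    rw [eta'_right X hi _ _ (by omega)]
    simp

/-- relation R2 -/
lemma relR2 (K : ℕ) (h hi : R') (hh : h * hi = 1) (z : X.V) :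
    ap (AK X R' 0) (AK X R' (K + 1) z) - ap (AK X R' (K + 1)) (AK X R' 0 z)
      + (ctL X.par (h • BK X R' (K + 1)) (eta' X R' hi) z
        + ctR (h • BK X R' (K + 1)) (eta' X R' hi) z)
      = ((K : R') + 1) • AK X R' K z := by
  obtain ⟨m, a⟩ := z
  cases m with
  | zero =>
    rw [comm_zero, AK_zero_apply, if_pos rfl, ap_zero, ctL_smul, ctR_smul, ctL_BK, ctR_BK,
      smul_smul, mul_neg, hh, ← smul_add, ← two_smul R' (∑ i ∈ range K, ∑ b : X.ι,
        Finsupp.single (K - 1 - i, b)
          (algebraMap ℂ R' (1 / 2 * (br (K + 1) i (X.b a - 1) * (X.R ^ i) a b)))), smul_smul]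
    have : bdry X R' K a = (2 : R') • ∑ i ∈ range K, ∑ b : X.ι,
        Finsupp.single (K - 1 - i, b)
          (algebraMap ℂ R' (1 / 2 * (br (K + 1) i (X.b a - 1) * (X.R ^ i) a b))) := by
      rw [bdry, Finset.smul_sum]
      refine Finset.sum_congr rfl fun i _ => ?_
      rw [Finset.smul_sum]
      refine Finset.sum_congr rfl fun b _ => ?_
      rw [Finsupp.smul_single]
      congr 1
      have h2 : (2 : R') = algebraMap ℂ R' 2 := (map_ofNat (algebraMap ℂ R') 2).symm
      rw [h2, smul_eq_mul, ← map_mul]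
      congr 1
      ring
    rw [this]
    module
  | succ m =>
    rw [ct_succ, add_zero, comm_succ, AK_zero_apply]
    simp only [Nat.add_eq_zero_iff, one_ne_zero, and_false, if_false, Nat.add_sub_cancel,
      ap_single, one_smul]
    abel

/-- relation R1 -/
lemma relR1 (K : ℕ) :
    ap (AK X R' 0) (AK X R' (K + 1) (1, X.one))
      = AK X R' (K + 1) (0, X.one) + ((K : R') + 1) • AK X R' K (1, X.one) :=
  comm_succ X K 0 X.one

end Vale.Agent.P269.H207
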