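import Vale.Agent.P269.H207.VirOps2

/-! The relations `R3`-`R6`. -/

set_option autoImplicit false

namespace Vale.Agent.P269.H207

open Finset

section
variable {α R : Type*} [CommRing R]

lemma lact_single' (A : α → α →₀ R) (x y : α) (c : R) (w : α) (hA : A x = Finsupp.single w 1) :
    lact A (Finsupp.single (x, y) c) = Finsupp.single (w, y) c := by
  rw [lact_single, hA, Finsupp.sum_single_index (by simp), mul_one]

lemma lact_single_zero (A : α → α →₀ R) (x y : α) (c : R) (hA : A x = 0) :
    lact A (Finsupp.single (x, y) c) = 0 := by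
  rw [lact_single, hA, Finsupp.sum_zero_index]

lemma ract_single' (A : α → α →₀ R) (x y : α) (c : R) (w : α) (hA : A y = Finsupp.single w 1) :
    ract A (Finsupp.single (x, y) c) = Finsupp.single (x, w) c := by
  rw [ract_single, hA, Finsupp.sum_single_index (by simp), mul_one]

lemma ract_single_zero (A : α → α →₀ R) (x y : α) (c : R) (hA : A y = 0) :
    ract A (Finsupp.single (x, y) c) = 0 := by
  rw [ract_single, hA, Finsupp.sum_zero_index]

end

variable (X : Target) {R' : Type*} [CommRing R'] [Algebra ℂ R']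

lemma BK_zero : BK X R' 0 = 0 := by simp [BK]

lemma BK_one : BK X R' 1 = 0 := by
  rw [BK_succ]; simp

/-- relation R3 -/
lemma relR3 (K : ℕ) (h : R') :
    lact (AK X R' 0) (h • BK X R' (K + 1)) + ract (AK X R' 0) (h • BK X R' (K + 1))
      = ((K : R') + 1) • (h • BK X R' K) := by
  rw [lact_smul, ract_smul, ← smul_add, smul_comm]
  congr 1
  cases K with
  | zero => rw [BK_one, BK_zero]; simp
  | succ K =>
    have e1 : lact (AK X R' 0) (BK X R' (K + 1 + 1))
        = ∑ i ∈ range K, ∑ m ∈ range (K - i), ∑ a : X.ι, ∑ b : X.ι,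
          Finsupp.single ((m, a), (K - 1 - i - m, b))
            (algebraMap ℂ R' (bc X (K + 1 + 1) i (m + 1) a b)) := by
      rw [BK_succ, sum_range_succ, lact_add, lact_finsetSum]
      have hz : lact (AK X R' 0) (∑ m ∈ range (K + 1 - K), ∑ a : X.ι, ∑ b : X.ι,
          Finsupp.single ((m, a), (K + 1 - 1 - K - m, b))
            (algebraMap ℂ R' (bc X (K + 1 + 1) K m a b))) = (0 : X.V × X.V →₀ R') := by
        have : K + 1 - K = 1 := by omega
        rw [this, sum_range_one, lact_finsetSum]
        refine Finset.sum_eq_zero fun a _ => ?_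
        rw [lact_finsetSum]
        refine Finset.sum_eq_zero fun b _ => ?_
        exact lact_single_zero _ _ _ _ (by rw [AK_zero_apply, if_pos rfl])
      rw [hz, add_zero]
      refine Finset.sum_congr rfl fun i hi => ?_
      have hi' : i < K := by simpa using hi
      have e : K + 1 - i = (K - i) + 1 := by omega
      rw [e, sum_range_succ', lact_add, lact_finsetSum, lact_finsetSum]
      have hz2 : ∑ a : X.ι, lact (AK X R' 0) (∑ b : X.ι,
          Finsupp.single ((0, a), (K + 1 - 1 - i - 0, b))
            (algebraMap ℂ R' (bc X (K + 1 + 1) i 0 a b))) = (0 : X.V × X.V →₀ R') := by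
        refine Finset.sum_eq_zero fun a _ => ?_
        rw [lact_finsetSum]
        refine Finset.sum_eq_zero fun b _ => ?_
        exact lact_single_zero _ _ _ _ (by rw [AK_zero_apply, if_pos rfl])
      rw [hz2, add_zero]
      refine Finset.sum_congr rfl fun m hm => ?_
      rw [lact_finsetSum]
      refine Finset.sum_congr rfl fun a _ => ?_
      rw [lact_finsetSum]
      refine Finset.sum_congr rfl fun b _ => ?_
      have hn : K + 1 - 1 - i - (m + 1) = K - 1 - i - m := by omega
      rw [hn]
      exact lact_single' _ _ _ _ _ (by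
        rw [AK_zero_apply, if_neg (by simp)]
        simp)
    have e2 : ract (AK X R' 0) (BK X R' (K + 1 + 1))
        = ∑ i ∈ range K, ∑ m ∈ range (K - i), ∑ a : X.ι, ∑ b : X.ι,
          Finsupp.single ((m, a), (K - 1 - i - m, b))
            (algebraMap ℂ R' (bc X (K + 1 + 1) i m a b)) := by
      rw [BK_succ, sum_range_succ, ract_add, ract_finsetSum]
      have hz : ract (AK X R' 0) (∑ m ∈ range (K + 1 - K), ∑ a : X.ι, ∑ b : X.ι,
          Finsupp.single ((m, a), (K + 1 - 1 - K - m, b))
            (algebraMap ℂ R' (bc X (K + 1 + 1) K m a b))) = (0 : X.V × X.V →₀ R') := by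
        have : K + 1 - K = 1 := by omega
        rw [this, sum_range_one, ract_finsetSum]
        refine Finset.sum_eq_zero fun a _ => ?_
        rw [ract_finsetSum]
        refine Finset.sum_eq_zero fun b _ => ?_
        refine ract_single_zero _ _ _ _ ?_
        rw [AK_zero_apply, if_pos (by simp)]
      rw [hz, add_zero]
      refine Finset.sum_congr rfl fun i hi => ?_
      have hi' : i < K := by simpa using hi
      have e : K + 1 - i = (K - i) + 1 := by omega
      rw [e, sum_range_succ, ract_add, ract_finsetSum, ract_finsetSum]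
      have hz2 : ∑ a : X.ι, ract (AK X R' 0) (∑ b : X.ι,
          Finsupp.single ((K - i, a), (K + 1 - 1 - i - (K - i), b))
            (algebraMap ℂ R' (bc X (K + 1 + 1) i (K - i) a b))) = (0 : X.V × X.V →₀ R') := by
        refine Finset.sum_eq_zero fun a _ => ?_
        rw [ract_finsetSum]
        refine Finset.sum_eq_zero fun b _ => ?_
        refine ract_single_zero _ _ _ _ ?_
        rw [AK_zero_apply, if_pos]
        show K + 1 - 1 - i - (K - i) = 0
        omega
      rw [hz2, add_zero]
      refine Finset.sum_congr rfl fun m hm => ?_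
      have hm' : m < K - i := by simpa using hm
      rw [ract_finsetSum]
      refine Finset.sum_congr rfl fun a _ => ?_
      rw [ract_finsetSum]
      refine Finset.sum_congr rfl fun b _ => ?_
      refine ract_single' _ _ _ _ _ ?_
      have hne : (K + 1 - 1 - i - m, b).1 ≠ 0 := by
        show K + 1 - 1 - i - m ≠ 0
        omega
      rw [AK_zero_apply, if_neg hne]
      congr 1
      show (K + 1 - 1 - i - m - 1, b) = (K - 1 - i - m, b)
      congr 1
      omega
    rw [e1, e2, BK_succ, ← Finset.sum_add_distrib, Finset.smul_sum]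
    refine Finset.sum_congr rfl fun i _ => ?_
    rw [← Finset.sum_add_distrib, Finset.smul_sum]
    refine Finset.sum_congr rfl fun m _ => ?_
    rw [← Finset.sum_add_distrib, Finset.smul_sum]
    refine Finset.sum_congr rfl fun a _ => ?_
    rw [← Finset.sum_add_distrib, Finset.smul_sum]
    refine Finset.sum_congr rfl fun b _ => ?_
    rw [← Finsupp.single_add, Finsupp.smul_single, ← map_add]
    congr 1
    have hb := br_diff (K + 1) i (-X.b a - m)
    have hx : -X.b a - ((m + 1 : ℕ) : ℂ) = -X.b a - m - 1 := by push_cast; ring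
    have : bc X (K + 1 + 1) i (m + 1) a b + bc X (K + 1 + 1) i m a b
        = ((K + 1 : ℕ) + 1 : ℂ) * bc X (K + 1) i m a b := by
      rw [bc, bc, bc, hx]
      linear_combination (1 / 2 * (-1) ^ (m + 1) * (X.η⁻¹ * X.R ^ i) a b) * hb
    rw [this, map_mul, smul_eq_mul]
    congr 1
    simp

/-- relation R4 -/
lemma relR4 (K : ℕ) (hi : R') (y : X.V) :
    hi * CK X R' (K + 1) (0, X.one) y
      = (AK X R' (K + 1) (1, X.one)).sum fun w a => a * eta' X R' hi w y := by
  unfold AK
  rw [fsum_finsetSum, sum_range_succ]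
  have hz : ∑ i ∈ range (K + 1), (∑ b : X.ι, if i + 1 ≤ (1, X.one).1 + (K + 1) then
      Finsupp.single ((1, X.one).1 + (K + 1) - 1 - i, b)
        (algebraMap ℂ R' (br (K + 1) i (X.b (1, X.one).2 + (((1, X.one).1 : ℕ) : ℂ))
          * (X.R ^ i) (1, X.one).2 b)) else 0).sum (fun w a => a * eta' X R' hi w y) = 0 := by
    refine Finset.sum_eq_zero fun i hi' => ?_
    have hi'' : i < K + 1 := by simpa using hi'
    rw [fsum_finsetSum]
    refine Finset.sum_eq_zero fun b _ => ?_
    rw [if_pos (by simp only; omega), fsum_single, eta'_left X hi _ (by simp only; omega), mul_zero]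
  rw [hz, zero_add, fsum_finsetSum]
  obtain ⟨n, c⟩ := y
  by_cases hn : n = 0
  · subst hn
    have h1 : ∀ b : X.ι, ((if K + 1 + 1 ≤ (1, X.one).1 + (K + 1) then
      Finsupp.single ((1, X.one).1 + (K + 1) - 1 - (K + 1), b)
        (algebraMap ℂ R' (br (K + 1) (K + 1) (X.b (1, X.one).2 + (((1, X.one).1 : ℕ) : ℂ))
          * (X.R ^ (K + 1)) (1, X.one).2 b)) else 0).sum
            (fun w a => a * eta' X R' hi w (0, c)) : R')
        = hi * algebraMap ℂ R' ((X.R ^ (K + 1)) X.one b * X.η b c) := by
      intro b
      have e0 : (1, X.one).1 + (K + 1) - 1 - (K + 1) = 0 := by simp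
      rw [if_pos (by simp only; omega), e0, fsum_single, eta'_zero, br_top, one_mul, map_mul]
      ring
    rw [Finset.sum_congr rfl fun b _ => h1 b, ← Finset.mul_sum, ← map_sum, ← Matrix.mul_apply]
    simp [CK]
  · rw [CK, if_neg (by simp [hn]), mul_zero]
    symm
    refine Finset.sum_eq_zero fun b _ => ?_
    split_ifs
    · rw [fsum_single, eta'_right X hi _ _ hn, mul_zero]
    · simp

/-- the pairing of `A_k x` with `y` -/
lemma AK_pair (K : ℕ) (hi : R') (m n : ℕ) (a c : X.ι) :
    ((AK X R' (K + 1) (m, a)).sum fun w d => d * eta' X R' hi w (n, c))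
      = if n = 0 then
          (if m = 0 then hi * algebraMap ℂ R' (br (K + 1) K (X.b a) * (X.R ^ K * X.η) a c)
          else if m = 1 then hi * algebraMap ℂ R' ((X.R ^ (K + 1) * X.η) a c)
          else 0)
        else 0 := by
  by_cases hn : n = 0
  · subst hn
    rw [if_pos rfl]
    have hgen : ∀ i : ℕ, i ≠ m + K →
        (∑ b : X.ι, if i + 1 ≤ m + (K + 1) then
          Finsupp.single (m + (K + 1) - 1 - i, b)
            (algebraMap ℂ R' (br (K + 1) i (X.b a + (m : ℂ))
              * (X.R ^ i) a b)) else 0).sum (fun w d => d * eta' X R' hi w (0, c)) = 0 := by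
      intro i hne
      rw [fsum_finsetSum]
      refine Finset.sum_eq_zero fun b _ => ?_
      split_ifs with hc
      · rw [fsum_single, eta'_left X hi _ (by omega), mul_zero]
      · simp
    have hspec : (∑ b : X.ι, if m + K + 1 ≤ m + (K + 1) then
          Finsupp.single (m + (K + 1) - 1 - (m + K), b)
            (algebraMap ℂ R' (br (K + 1) (m + K) (X.b a + (m : ℂ))
              * (X.R ^ (m + K)) a b)) else 0).sum (fun w d => d * eta' X R' hi w (0, c))
        = hi * algebraMap ℂ R' (br (K + 1) (m + K) (X.b a + (m : ℂ))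
          * (X.R ^ (m + K) * X.η) a c) := by
      rw [fsum_finsetSum, Matrix.mul_apply, Finset.mul_sum, map_sum, Finset.mul_sum]
      refine Finset.sum_congr rfl fun b _ => ?_
      have e0 : m + (K + 1) - 1 - (m + K) = 0 := by omega
      rw [if_pos (by omega), e0, fsum_single, eta'_zero]
      simp only [map_mul]
      ring
    unfold AK
    rw [fsum_finsetSum]
    by_cases hm : m ≤ 1
    · rw [Finset.sum_eq_single (m + K) (fun i _ hne => hgen i hne)
        (fun h => absurd (Finset.mem_range.mpr (by omega)) h)]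
      refine hspec.trans ?_
      interval_cases m
      · rw [if_pos rfl, zero_add]
        simp
      · rw [if_neg (by omega), if_pos rfl, add_comm 1 K, br_top, one_mul]
    · rw [if_neg (by omega), if_neg (by omega)]
      refine Finset.sum_eq_zero fun i hi' => hgen i ?_
      have : i < K + 1 + 1 := by simpa using hi'
      omega
  · rw [if_neg hn]
    unfold AK
    rw [fsum_finsetSum]
    refine Finset.sum_eq_zero fun i _ => ?_
    rw [fsum_finsetSum]
    refine Finset.sum_eq_zero fun b _ => ?_
    split_ifs
    · rw [fsum_single, eta'_right X hi _ _ hn, mul_zero]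
    · simp

lemma eta'_symm (hi : R') (x y : X.V) :
    eta' X R' hi x y = (-1) ^ (X.par x * X.par y) * eta' X R' hi y x := by
  obtain ⟨m, a⟩ := x
  obtain ⟨n, c⟩ := y
  by_cases h : m = 0 ∧ n = 0
  · obtain ⟨rfl, rfl⟩ := h
    rw [eta'_zero, eta'_zero, X.η_symm a c, map_mul, map_pow, map_neg, map_one]
    simp only [Target.par]
    ring
  · by_cases hm : m = 0
    · have hn : n ≠ 0 := fun hn => h ⟨hm, hn⟩
      rw [eta'_right X hi _ _ hn, eta'_left X hi _ hn, mul_zero]
    · rw [eta'_left X hi _ hm, eta'_right X hi _ _ hm, mul_zero]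

lemma eta'_par (hi : R') (x y : X.V) (h : eta' X R' hi x y ≠ 0) :
    X.par x % 2 = X.par y % 2 := by
  obtain ⟨m, a⟩ := x
  obtain ⟨n, c⟩ := y
  by_cases hm : m = 0
  · by_cases hn : n = 0
    · subst hm hn
      rw [eta'_zero] at h
      have h1 : X.η a c ≠ 0 := by
        intro h0
        rw [h0, map_zero, mul_zero] at h
        exact h rfl
      have := X.η_type a c h1
      simp only [Target.par]
      omega
    · exact absurd (eta'_right X hi _ _ hn _) h
  · exact absurd (eta'_left X hi _ hm _ _) h

/-- the pairing of `x` with `A_k y` -/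
lemma AK_pair' (K : ℕ) (hi : R') (m n : ℕ) (a c : X.ι) :
    ((AK X R' (K + 1) (n, c)).sum fun w d => d * eta' X R' hi (m, a) w)
      = if m = 0 then
          (if n = 0 then hi * algebraMap ℂ R' (br (K + 1) K (X.b c) * (X.R ^ K * X.η) a c)
          else if n = 1 then hi * algebraMap ℂ R' ((X.R ^ (K + 1) * X.η) a c)
          else 0)
        else 0 := by
  have h1 : ((AK X R' (K + 1) (n, c)).sum fun w d => d * eta' X R' hi (m, a) w)
      = (-1) ^ (X.par (m, a) * X.par (n, c))
        * ((AK X R' (K + 1) (n, c)).sum fun w d => d * eta' X R' hi w (m, a)) := by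
    rw [Finsupp.mul_sum]
    refine Finset.sum_congr rfl fun w hw => ?_
    have hp := AK_even X (K + 1) (n, c) w hw
    show _ * _ = _ * (_ * _)
    rw [eta'_symm X hi (m, a) w]
    have : ((-1 : R')) ^ (X.par (m, a) * X.par w) = (-1) ^ (X.par (m, a) * X.par (n, c)) := by
      apply neg_one_pow_mod
      rw [Nat.mul_mod, hp, ← Nat.mul_mod]
    rw [this]
    ring
  rw [h1, AK_pair]
  have hs : ∀ i : ℕ, (X.R ^ i * X.η) a c
      = (-1) ^ (X.par (m, a) * X.par (n, c)) * (X.R ^ i * X.η) c a := by
    intro i
    rw [X.down_symm i a c]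
    rfl
  have hpow : ∀ r : ℂ, (-1 : R') ^ (X.par (m, a) * X.par (n, c)) * (hi * algebraMap ℂ R' r)
      = hi * algebraMap ℂ R' ((-1) ^ (X.par (m, a) * X.par (n, c)) * r) := by
    intro r
    rw [map_mul, map_pow, map_neg, map_one]
    ring
  split_ifs with h1 h2 h3
  · rw [hs K, hpow]
    congr 2
    ring
  · rw [hs (K + 1), hpow]
  · simp
  · simp

/-- relation R5 -/
lemma relR5 (K : ℕ) (hi : R') (x y : X.V) :
    ((AK X R' (K + 1) x).sum fun w a => a * eta' X R' hi w y)
      + ((AK X R' (K + 1) y).sum fun w a => a * eta' X R' hi x w)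
    = ((AK X R' 0 x).sum fun w a => a * (hi * CK X R' (K + 1) w y))
      + ((AK X R' 0 y).sum fun w a => a * (hi * CK X R' (K + 1) x w))
      + ((K : R') + 1) * (hi * CK X R' K x y) := by
  obtain ⟨m, a⟩ := x
  obtain ⟨n, c⟩ := y
  rw [AK_pair, AK_pair', AK_zero_apply, AK_zero_apply]
  by_cases hm : m = 0
  · subst hm
    by_cases hn : n = 0
    · subst hn
      simp only [if_true, Finsupp.sum_zero_index, zero_add]
      rw [← mul_add, ← map_add]
      have hC : CK X R' K (0, a) (0, c) = algebraMap ℂ R' ((X.R ^ K * X.η) a c) := by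
        simp [CK]
      rw [hC]
      have key : br (K + 1) K (X.b a) * (X.R ^ K * X.η) a c
          + br (K + 1) K (X.b c) * (X.R ^ K * X.η) a c
          = ((K : ℂ) + 1) * (X.R ^ K * X.η) a c := by
        by_cases h0 : (X.R ^ K * X.η) a c = 0
        · rw [h0]; ring
        · have ht := (X.down_type K a c h0).1
          rw [br_sub, br_sub, Target.b, Target.b]
          have : (X.D : ℂ) = X.p a + X.p c + K := by
            rw [← ht]; push_cast; ring
          rw [this]
          ring
      rw [key, map_mul]
      simp only [map_add, map_natCast, map_one]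
      ring
    · have hC : CK X R' K (0, a) (n, c) = 0 := by simp [CK, hn]
      simp only [if_true, hn, if_false, Finsupp.sum_zero_index, zero_add, hC, mul_zero,
        add_zero]
      rw [Finsupp.sum_single_index (by simp), one_mul]
      by_cases hn1 : n = 1
      · subst hn1
        simp [CK]
      · have : n - 1 ≠ 0 := by omega
        simp [CK, hn1, this]
  · by_cases hn : n = 0
    · subst hn
      have hC : CK X R' K (m, a) (0, c) = 0 := by simp [CK, hm]
      simp only [if_true, hm, if_false, Finsupp.sum_zero_index, hC, mul_zero,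
        add_zero]
      rw [Finsupp.sum_single_index (by simp), one_mul]
      by_cases hm1 : m = 1
      · subst hm1
        simp [CK]
      · have : m - 1 ≠ 0 := by omega
        simp [CK, hm1, this]
    · simp only [hm, hn, if_false]
      rw [Finsupp.sum_single_index (by simp), Finsupp.sum_single_index (by simp)]
      simp [CK, hm, hn]

/-- relation R6 -/
lemma relR6 (K : ℕ) (h hi : R') (hh : h * hi = 1) :
    (1 : R') * ((h • BK X R' (K + 1)).sum fun p b => b * eta' X R' hi p.1 p.2)
      = ((K : R') + 1) * cK X R' K := by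
  have e0 : ((h • BK X R' (K + 1)).sum fun p b => b * eta' X R' hi p.1 p.2)
      = h * ((BK X R' (K + 1)).sum fun p b => b * eta' X R' hi p.1 p.2) := by
    rw [Finsupp.sum_smul_index' (fun _ => by simp), Finsupp.mul_sum]
    exact Finsupp.sum_congr fun x _ => by simp only [smul_eq_mul]; ring
  rw [one_mul, e0]
  have e1 : ((BK X R' (K + 1)).sum fun p b => b * eta' X R' hi p.1 p.2)
      = ∑ i ∈ range K, ∑ m ∈ range (K - i), ∑ a : X.ι, ∑ b : X.ι,
        algebraMap ℂ R' (bc X (K + 1) i m a b) * eta' X R' hi (m, a) (K - 1 - i - m, b) := by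
    rw [BK_succ, fsum_finsetSum]
    refine Finset.sum_congr rfl fun i _ => ?_
    rw [fsum_finsetSum]
    refine Finset.sum_congr rfl fun m _ => ?_
    rw [fsum_finsetSum]
    refine Finset.sum_congr rfl fun a _ => ?_
    rw [fsum_finsetSum]
    refine Finset.sum_congr rfl fun b _ => ?_
    rw [fsum_single (R := R')]
  rw [e1]
  by_cases hK : K = 1
  · subst hK
    have : ∑ i ∈ range 1, ∑ m ∈ range (1 - i), ∑ a : X.ι, ∑ b : X.ι,
        algebraMap ℂ R' (bc X (1 + 1) i m a b) * eta' X R' hi (m, a) (1 - 1 - i - m, b)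
        = hi * algebraMap ℂ R' (∑ a : X.ι, ∑ b : X.ι, bc X (1 + 1) 0 0 a b * X.η a b) := by
      rw [sum_range_one, Nat.sub_zero, sum_range_one, map_sum, Finset.mul_sum]
      refine Finset.sum_congr rfl fun a _ => ?_
      rw [map_sum, Finset.mul_sum]
      refine Finset.sum_congr rfl fun b _ => ?_
      have e2 : 1 - 1 - 0 - 0 = 0 := rfl
      rw [e2, eta'_zero, map_mul]
      ring
    rw [this, ← mul_assoc, hh, one_mul, cK, if_pos rfl]
    have key : ∑ a : X.ι, ∑ b : X.ι, bc X (1 + 1) 0 0 a b * X.η a b
        = 2 * (X.chi / 16 - X.strMu2 / 4) := by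
      have h1 : ∀ a : X.ι, ∑ b : X.ι, bc X (1 + 1) 0 0 a b * X.η a b
          = -(1 / 2) * (((X.p a : ℂ) - X.D / 2) ^ 2 - 1 / 4) * (-1) ^ (X.p a + X.q a) := by
        intro a
        rw [← X.sum_inv_eta a, Finset.mul_sum]
        refine Finset.sum_congr rfl fun b _ => ?_
        rw [bc, br_two, pow_zero, Matrix.mul_one, Target.b]
        push_cast
        ring
      rw [Finset.sum_congr rfl fun a _ => h1 a, Target.chi, Target.strMu2, Finset.sum_div,
        Finset.sum_div, ← Finset.sum_sub_distrib, Finset.mul_sum]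
      refine Finset.sum_congr rfl fun a _ => ?_
      ring
    rw [key, map_mul]
    simp only [Nat.cast_one]
    congr 1
    rw [map_ofNat]
    norm_num
  · have hz : ∑ i ∈ range K, ∑ m ∈ range (K - i), ∑ a : X.ι, ∑ b : X.ι,
        algebraMap ℂ R' (bc X (K + 1) i m a b) * eta' X R' hi (m, a) (K - 1 - i - m, b)
        = 0 := by
      refine Finset.sum_eq_zero fun i hi' => Finset.sum_eq_zero fun m hm =>
        Finset.sum_eq_zero fun a _ => Finset.sum_eq_zero fun b _ => ?_
      have hi'' : i < K := by simpa using hi'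
      have hm' : m < K - i := by simpa using hm
      by_cases hm0 : m = 0
      · by_cases hn0 : K - 1 - i - m = 0
        · rw [hn0, hm0, eta'_zero]
          by_cases h1 : (X.η⁻¹ * X.R ^ i) a b = 0
          · rw [bc, h1]; simp
          · by_cases h2 : X.η a b = 0
            · rw [h2]; simp
            · have t1 := X.up_type i a b h1
              have t2 := X.η_type a b h2
              omega
        · rw [eta'_right X hi _ _ hn0, mul_zero]
      · rw [eta'_left X hi _ hm0, mul_zero]
    rw [hz, cK, if_neg hK]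
    simp

end Vale.Agent.P269.H207
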